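import Vale.Agent.P076N.NUM.Spec

/-!
# P076N, block NUM : elementary lemmas on sums, paths and jump costs
-/

set_option linter.all false

open Finset

namespace Vale.Agent.P076N.NUM

variable {m : ℕ} {gr : Prop} {O : Orc} {π : Par} {d : Dat}

theorem A_add (d : Dat) {i j l : ℕ} (h1 : i ≤ j) (h2 : j ≤ l) : d.A i l = d.A i j + d.A j l :=
  (sum_Ico_consecutive _ h1 h2).symm

theorem G_add (d : Dat) {i j l : ℕ} (h1 : i ≤ j) (h2 : j ≤ l) : d.G i l = d.G i j + d.G j l :=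
  (sum_Ico_consecutive _ h1 h2).symm

theorem Φ_add (d : Dat) {i j l : ℕ} (h1 : i ≤ j) (h2 : j ≤ l) : d.Φ i l = d.Φ i j + d.Φ j l :=
  (sum_Ico_consecutive _ h1 h2).symm

@[simp] theorem A_self (d : Dat) (i : ℕ) : d.A i i = 0 := by simp [Dat.A]

@[simp] theorem G_self (d : Dat) (i : ℕ) : d.G i i = 0 := by simp [Dat.G]

@[simp] theorem Φ_self (d : Dat) (i : ℕ) : d.Φ i i = 0 := by simp [Dat.Φ]

theorem A_succ (d : Dat) {i j : ℕ} (h : i ≤ j) : d.A i (j + 1) = d.A i j + d.a j := sum_Ico_succ_top h _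

theorem G_succ (d : Dat) {i j : ℕ} (h : i ≤ j) : d.G i (j + 1) = d.G i j + d.g j := sum_Ico_succ_top h _

theorem Φ_succ (d : Dat) {i j : ℕ} (h : i ≤ j) : d.Φ i (j + 1) = d.Φ i j + d.φ j := sum_Ico_succ_top h _

theorem sum_Ico_le {f : ℕ → ℝ} {i j : ℕ} {c : ℝ} (hij : i ≤ j) (h : ∀ l, i ≤ l → l < j → f l ≤ c) :
    ∑ l ∈ Ico i j, f l ≤ c * ((j : ℝ) - i) := by
  have := sum_le_card_nsmul (Ico i j) f c fun l hl => h l (mem_Ico.1 hl).1 (mem_Ico.1 hl).2
  rw [Nat.card_Ico, nsmul_eq_mul, Nat.cast_sub hij] at this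
  linarith

theorem A_nonneg (h : Ax m gr O π d) {i j : ℕ} (hj : j ≤ π.K) : 0 ≤ d.A i j :=
  sum_nonneg fun l hl => (h.a0 l (lt_of_lt_of_le (mem_Ico.1 hl).2 hj)).1

theorem G_nonneg (h : Ax m gr O π d) {i j : ℕ} (hj : j ≤ π.K) : 0 ≤ d.G i j :=
  sum_nonneg fun l hl => (h.g0 l (lt_of_lt_of_le (mem_Ico.1 hl).2 hj)).1

theorem A_le (h : Ax m gr O π d) {i j : ℕ} (hij : i ≤ j) (hj : j ≤ π.K) :
    d.A i j ≤ (1 + (m : ℝ) / 2) * ((j : ℝ) - i) :=
  sum_Ico_le hij fun l _ hl => (h.a0 l (lt_of_lt_of_le hl hj)).2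

/-- `A` is monotone in the interval -/
theorem A_mono (h : Ax m gr O π d) {i i' j j' : ℕ} (h1 : i' ≤ i) (h2 : i ≤ j) (h3 : j ≤ j') (hj : j' ≤ π.K) :
    d.A i j ≤ d.A i' j' := by
  rw [A_add d (h1.trans h2) h3, A_add d h1 h2]
  have := A_nonneg h (i := i') (j := i) (by omega)
  have := A_nonneg h (i := j) hj
  linarith

theorem G_mono (h : Ax m gr O π d) {i i' j j' : ℕ} (h1 : i' ≤ i) (h2 : i ≤ j) (h3 : j ≤ j') (hj : j' ≤ π.K) :
    d.G i j ≤ d.G i' j' := by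
  rw [G_add d (h1.trans h2) h3, G_add d h1 h2]
  have := G_nonneg h (i := i') (j := i) (by omega)
  have := G_nonneg h (i := j) hj
  linarith

theorem Φ_le_G (h : Ax m gr O π d) {i j : ℕ} (hij : i ≤ j) (hj : j ≤ π.K) :
    d.Φ i j ≤ d.G i j + π.o * ((j : ℝ) - i) := by
  have := sum_Ico_le (f := fun l => d.φ l - d.g l) (c := π.o) hij fun l _ hl => by
    have := (h.g0 l (lt_of_lt_of_le hl hj)).2
    linarith
  rw [sum_sub_distrib] at this
  unfold Dat.Φ Dat.G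
  linarith

theorem act_le {k J W : ℕ} (h : d.Act m π k J W) : J + W ≤ π.K ∧ k ≤ m := by
  rcases h with ⟨h1, h2, h3⟩ | ⟨-, h1, -, h2, -⟩ <;> omega

theorem act_top (d : Dat) (m : ℕ) (π : Par) : d.Act m π m 0 π.K := Or.inl ⟨rfl, rfl, rfl⟩

theorem G_le (h : Ax m gr O π d) {k J W i j : ℕ} (ha : d.Act m π k J W) (h1 : J ≤ i) (hij : i ≤ j)
    (h2 : j ≤ J + W) : d.G i j ≤ ((k : ℝ) + π.o) * ((j : ℝ) - i) :=
  sum_Ico_le hij fun l hl hl' => h.ty k J W l ha (by omega) (by omega)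

theorem path_trans {El : ℕ → ℕ → ℝ → Prop} {i j l : ℕ} {z z' : ℝ} (h1 : Path El i j z) (h2 : Path El j l z') :
    Path El i l (z + z') := by
  induction h2 with
  | nil => simpa using h1
  | snoc _ hE ih => rw [← add_assoc]; exact Path.snoc ih hE

theorem path_one {El : ℕ → ℕ → ℝ → Prop} {i j : ℕ} {z : ℝ} (h : El i j z) : Path El i j z := by
  simpa using Path.snoc (Path.nil i) h

theorem path_le (h : Ax m gr O π d) {i j : ℕ} {z : ℝ} (hp : Path d.El i j z) : i ≤ j := by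
  induction hp with
  | nil => exact le_rfl
  | snoc _ hE ih => exact ih.trans (h.lt _ _ _ hE).1.le

/-- the standard path -/
theorem std_path (h : Ax m gr O π d) {i j : ℕ} (hij : i ≤ j) (hj : j ≤ π.K) :
    Path d.El i j (d.Φ i j + 2 * d.A i j + π.o * ((j : ℝ) - i)) := by
  induction j, hij using Nat.le_induction with
  | base => simpa using Path.nil i
  | succ j hij ih =>
    have := Path.snoc (ih (by omega)) (h.std j (by omega))
    rw [Φ_succ d hij, A_succ d hij]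
    convert this using 1
    push_cast
    ring

/-- the standard path inside an active block -/
theorem std_blk (h : Ax m gr O π d) {k J W i j : ℕ} (ha : d.Act m π k J W) (h1 : J ≤ i) (hij : i ≤ j)
    (h2 : j ≤ J + W) : ∃ z, Path d.El i j z ∧ z ≤ 2 * d.A i j + ((k : ℝ) + 3 * π.o) * ((j : ℝ) - i) := by
  have hK := (act_le ha).1
  refine ⟨_, std_path h hij (by omega), ?_⟩
  have := Φ_le_G h hij (by omega : j ≤ π.K)
  have := G_le h ha h1 hij h2
  linarith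

/-- `lw` over an arbitrary range -/
theorem lw_long (h : Ax m gr O π d) {ε : ℝ} (hε : ε ∈ π.E) (hε0 : 0 ≤ ε) {s : Jm} (hs : d.Jp m π s)
    {x x' : ℕ} (hx : (O.Ml ε + 2) * s.w ≤ x) (hxx : x ≤ x') (hE : s.j + x' ≤ s.J + s.W) :
    d.cost s x' ≤ d.cost s x + 2 * (s.k + 1) * d.A (s.j + x) (s.j + x') + 2 * ε * x' := by
  have hw : 1 ≤ s.w := hs.2.2.2.2.2.2
  have key : ∀ n x : ℕ, (O.Ml ε + 2) * s.w ≤ x → x ≤ x' → x' - x ≤ n →
      d.cost s x' ≤ d.cost s x + 2 * (s.k + 1) * d.A (s.j + x) (s.j + x') + ε * (2 * x' - x) := by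
    intro n
    induction n with
    | zero =>
      intro x _ h2 h3
      obtain rfl : x = x' := by omega
      have : (0 : ℝ) ≤ ε * (2 * x - x) := mul_nonneg hε0 (by have := Nat.cast_nonneg (α := ℝ) x; linarith)
      simp only [A_self]
      linarith
    | succ n ih =>
      intro x h1 h2 h3
      have hx2 : 2 * s.w ≤ x := le_trans (Nat.mul_le_mul_right _ (by omega)) h1
      have hxM : O.Ml ε * s.w ≤ x := le_trans (Nat.mul_le_mul_right _ (by omega)) h1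
      have hxr : (x : ℝ) ≤ x' := by exact_mod_cast h2
      by_cases hc : x' ≤ 2 * x
      · have := h.lw ε hε s x x' hs hx2 hxM h2 hc hE
        have h4 : ε * x ≤ ε * (2 * x' - x) := mul_le_mul_of_nonneg_left (by linarith) hε0
        linarith
      · have h5 := h.lw ε hε s x (2 * x) hs hx2 hxM (by omega) le_rfl (by omega)
        have h6 := ih (2 * x) (by omega) (by omega) (by omega)
        rw [A_add d (i := s.j + x) (j := s.j + 2 * x) (l := s.j + x') (by omega) (by omega)]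
        push_cast at h6
        linarith
  have := key (x' - x) x hx hxx le_rfl
  have h0 : 0 ≤ ε * x := mul_nonneg hε0 (Nat.cast_nonneg _)
  linarith

/-- upper bound for the cost of a jump -/
theorem cost_le (h : Ax m gr O π d) {ε : ℝ} (hε : ε ∈ π.E) (hε0 : 0 ≤ ε) {s : Jm} (hs : d.Jp m π s)
    {x : ℕ} (hx : (O.Ml ε + 2) * s.w ≤ x) (hE : s.j + x ≤ s.J + s.W) :
    d.cost s x ≤ 2 * (s.k + 1) * d.A s.j (s.j + x) + 2 * ε * x +
      2 * (m + 1) * ((O.Ml ε + 2) * s.w) + π.o := by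
  have h1 := lw_long h hε hε0 hs le_rfl hx hE
  have h2 := h.c0 s ((O.Ml ε + 2) * s.w) hs (Nat.mul_le_mul_right _ (by omega)) (by omega)
  have hK := (act_le hs.1).1
  have h3 : d.A (s.j + (O.Ml ε + 2) * s.w) (s.j + x) ≤ d.A s.j (s.j + x) :=
    A_mono h (by omega) (by omega) le_rfl (by omega)
  have h4 := mul_le_mul_of_nonneg_left h3 (by positivity : (0 : ℝ) ≤ 2 * (s.k + 1))
  push_cast at h2
  linarith

/-- every path below `c` costs at least `q A`, when greedy paths are almost extremal at `c` -/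
theorem any_path (h : Ax m gr O π d) {q e e' : ℝ} {c : ℕ} (hc : (gr ∧ c ≤ π.K) ∨ 2 * c ≤ π.K ∨ c = π.K)
    (hg : Grd d q 0 c e) (hq : q * d.A 0 c ≤ c + e') {i j : ℕ} {z : ℝ} (hj : j ≤ c)
    (hp : Path d.El i j z) : q * d.A i j - (2 * e + e' + π.o) ≤ z := by
  have hij := path_le h hp
  obtain ⟨z1, p1, h1⟩ := hg 0 i le_rfl (Nat.zero_le _) (hij.trans hj)
  obtain ⟨z2, p2, h2⟩ := hg j c (Nat.zero_le _) hj le_rfl
  have := h.gp c _ hc (path_trans (path_trans p1 hp) p2)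
  rw [A_add d (Nat.zero_le j) hj, A_add d (Nat.zero_le i) hij] at hq
  linarith

/-- lower bound for `A` from a greedy path and `gp` -/
theorem low_A (h : Ax m gr O π d) {q e : ℝ} {c ρ : ℕ} (hg : Grd d q 0 c e) (hρ : ρ ≤ c)
    (hc : (gr ∧ ρ ≤ π.K) ∨ 2 * ρ ≤ π.K ∨ ρ = π.K) : (ρ : ℝ) - (e + π.o) ≤ q * d.A 0 ρ := by
  obtain ⟨z, p, hz⟩ := hg 0 ρ le_rfl (Nat.zero_le _) hρ
  have := h.gp ρ z hc p
  linarith

/-- all triples below `K` -/
def trAll (m K : ℕ) : Finset (ℕ × ℕ × ℕ) := range m ×ˢ range (K + 1) ×ˢ range (K + 1)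

theorem full_of {π : Par} (h : π.Tr = trAll m π.K) : Full m π := by
  intro k j w hk _ hj
  rw [h]
  simp only [trAll, mem_product, mem_range]
  omega

end Vale.Agent.P076N.NUM
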