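import Vale.Agent.P076N.NUM.N3

/-!
# P076N, block NUM : the profile on an active block
-/

set_option linter.all false

open Finset

namespace Vale.Agent.P076N.NUM

variable {m : ℕ} {gr : Prop} {O : Orc} {π : Par} {d : Dat}

/-- two sided bounds for the cost of a jump -/
theorem cost_two (h : Ax m gr O π d) {k W j w : ℕ} {ε e : ℝ} (hε : ε ∈ π.E) (hε0 : 0 ≤ ε)
    (hs : d.Jp m π ⟨k, 0, W, j, w⟩)
    (hany : ∀ i j z, j ≤ W → Path d.El i j z → ((k : ℝ) + 2) * d.A i j - e ≤ z)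
    (he1 : 2 * ε * W + 2 * (m + 1) * ((O.Ml ε + 2) * w) + π.o ≤ e) (he2 : π.o ≤ e)
    {x : ℕ} (hx : (O.Ml ε + 2) * w ≤ x) (hW : j + 2 * x ≤ W) :
    d.cost ⟨k, 0, W, j, w⟩ x ≤ 2 * (k + 1) * d.A j (j + x) + e ∧
      ((k : ℝ) + 2) * d.A j (j + 2 * x) - 2 * d.A (j + x) (j + 2 * x) - 2 * e ≤ d.cost ⟨k, 0, W, j, w⟩ x := by
  have h1 := cost_le h hε hε0 hs hx (by simp only; omega)
  have h2 := hany _ _ _ hW (path_one (h.jmp _ x hs (le_trans (Nat.mul_le_mul_right _ (by omega)) hx)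
    (by simp only; omega)))
  have h3 : ε * x ≤ ε * W := mul_le_mul_of_nonneg_left (by exact_mod_cast (by omega : x ≤ W)) hε0
  simp only at h1 h2
  constructor <;> linarith

theorem blk_ring (h : Ax m gr O π d) {k W j w y : ℕ} {γ ε e η s : ℝ} (hγ : γ ∈ π.E) (hγ0 : 0 < γ)
    (hε : ε ∈ π.E) (hε0 : 0 ≤ ε) (ho : 0 ≤ π.o) (hs : d.Jp m π ⟨k, 0, W, j, w⟩)
    (hany : ∀ i j z, j ≤ W → Path d.El i j z → ((k : ℝ) + 2) * d.A i j - e ≤ z)
    (he1 : 2 * ε * W + 2 * (m + 1) * ((O.Ml ε + 2) * w) + π.o ≤ e) (he2 : π.o * W ≤ e) (he3 : π.o ≤ e)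
    (he4 : (w : ℝ) ≤ e) (heη : e ≤ η) (hη1 : (3 * m + 9) * η ≤ O.er γ γ * y) (hη2 : (m + 3) * η ≤ γ * y)
    (hy : (O.Ml ε + 2) * w ≤ y) (hy0 : O.y₀ γ γ ≤ y) (hW : j + 4 * O.M γ γ * y ≤ W) (hs1 : γ ≤ s)
    (hs2 : s ≤ 1 - γ) (hlin : ∀ x x' : ℕ, x ≤ x' → x' ≤ 4 * O.M γ γ * y →
      |d.A (j + x) (j + x') - s * ((x' : ℝ) - x)| ≤ η) : False := by
  obtain ⟨hWK, hkm⟩ := act_le hs.1
  simp only [Nat.zero_add] at hWK hkm
  have hk1 : 1 ≤ k := hs.2.1
  have hM := O.one γ γ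
  obtain ⟨X, hX⟩ : ∃ X, X = O.M γ γ * y := ⟨_, rfl⟩
  have hyX : y ≤ X := hX ▸ Nat.le_mul_of_pos_left _ hM
  rw [mul_assoc, ← hX] at hW hlin
  have hkr : (k : ℝ) ≤ m := by exact_mod_cast hkm
  have hk1r : (1 : ℝ) ≤ k := by exact_mod_cast hk1
  have he0 : 0 ≤ e := ho.trans he3
  have hη0 : 0 ≤ η := he0.trans heη
  have hkη : (k : ℝ) * η ≤ m * η := mul_le_mul_of_nonneg_right hkr hη0
  have hmη : 0 ≤ (m : ℝ) * η := by positivity
  refine h.ring γ hγ γ hγ ⟨k, 0, W, j, w⟩ X y (1 - s) hs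
    (le_trans (Nat.mul_le_mul_right _ (by omega)) (hy.trans hyX)) hy0 (by simp only; linarith) hX.ge
    (by simp only; omega) (by linarith) (by linarith) (fun x x' h1 h2 h3 => ?_) ?_
  · rw [← hX] at h3
    simp only [sub_sub_cancel]
    refine ⟨(hlin x x' h2 (by omega)).trans (by linarith), ?_⟩
    have h4 := (cost_two h hε hε0 hs hany he1 he3 (x := x) (by omega) (by omega)).1
    have h5 := (cost_two h hε hε0 hs hany he1 he3 (x := x') (by omega) (by omega)).2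
    have h6 := (abs_le.1 (hlin 0 x (by omega) (by omega))).2
    have h7 := (abs_le.1 (hlin 0 (2 * x') (by omega) (by omega))).1
    have h8 := (abs_le.1 (hlin x' (2 * x') (by omega) (by omega))).2
    simp only [Nat.add_zero] at h6 h7
    push_cast at h6 h7 h8
    have h9 := mul_le_mul_of_nonneg_left h6 (by linarith : (0 : ℝ) ≤ 2 * (k + 1))
    have h10 := mul_le_mul_of_nonneg_left h7 (by linarith : (0 : ℝ) ≤ k + 2)
    linarith
  · simp only
    have h1 := hany _ _ _ (by omega : j + 2 * y ≤ W) (std_path h (by omega : j ≤ j + 2 * y) (by omega))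
    have h2 := Φ_le_G h (by omega : j ≤ j + 2 * y) (by omega)
    have h3 : π.o * (((j + 2 * y : ℕ) : ℝ) - j) ≤ π.o * W := by
      refine mul_le_mul_of_nonneg_left ?_ ho
      have : ((j + 2 * y : ℕ) : ℝ) ≤ W := by exact_mod_cast (by omega : j + 2 * y ≤ W)
      have := Nat.cast_nonneg (α := ℝ) j
      linarith
    have h4 := (abs_le.1 (hlin 0 (2 * y) (by omega) (by omega))).1
    simp only [Nat.add_zero] at h4
    push_cast at h4
    have h5 := mul_le_mul_of_nonneg_left h4 (by linarith : (0 : ℝ) ≤ k)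
    have h6 : γ * y ≤ s * y := mul_le_mul_of_nonneg_right hs1 (Nat.cast_nonneg _)
    have h7 : 0 ≤ γ * y := by positivity
    have h8 : s * y ≤ k * (s * y) := le_mul_of_one_le_left (by linarith) hk1r
    linarith

theorem blk : RowBLK := by
  intro hRB m k O e hk hkm he
  obtain ⟨γ, hγ0, hγ⟩ : ∃ γ : ℝ, 0 < γ ∧ 2 * γ = e := ⟨e / 2, by positivity, by ring⟩
  have her := O.pos γ γ
  obtain ⟨r, hr0, hr1, hr2, hr3⟩ : ∃ r : ℝ, 0 < r ∧ r ≤ 1 ∧ (3 * (m : ℝ) + 9) * r ≤ O.er γ γ ∧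
      (3 * (m : ℝ) + 9) * r ≤ γ := by
    have hm : (0 : ℝ) ≤ m := Nat.cast_nonneg _
    have h0 : 0 < min 1 (min (O.er γ γ) γ) := lt_min one_pos (lt_min her hγ0)
    have h1 : (3 * (m : ℝ) + 9) * (min 1 (min (O.er γ γ) γ) / (3 * (m : ℝ) + 9)) =
        min 1 (min (O.er γ γ) γ) := by field_simp
    refine ⟨min 1 (min (O.er γ γ) γ) / (3 * (m : ℝ) + 9), by positivity, ?_, ?_, ?_⟩
    · rw [div_le_one (by positivity)]
      exact (min_le_left _ _).trans (by linarith)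
    · rw [h1]; exact (min_le_right _ _).trans (min_le_left _ _)
    · rw [h1]; exact (min_le_right _ _).trans (min_le_right _ _)
  obtain ⟨δ₀, hδ₀, hR⟩ := hRB (1 + (m : ℝ) / 2) (k + 2) γ r (4 * O.M γ γ) (by positivity) hγ0 hr0
  obtain ⟨ε, hε0, hε⟩ : ∃ ε : ℝ, 0 < ε ∧ 12 * ε = r * δ₀ := ⟨r * δ₀ / 12, by positivity, by ring⟩
  obtain ⟨Q, hQ⟩ : ∃ Q : ℝ, Q = 2 * (m + 1) * ((O.Ml ε : ℝ) + 2) + O.y₀ γ γ + 1 := ⟨_, rfl⟩
  have hQ1 : (0 : ℝ) ≤ 2 * m * ((O.Ml ε : ℝ) + 2) := by positivity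
  have hQ2 : (0 : ℝ) ≤ O.y₀ γ γ := Nat.cast_nonneg _
  have hQ3 : (0 : ℝ) ≤ O.Ml ε := Nat.cast_nonneg _
  have hQ0 : 1 ≤ Q := by linarith
  obtain ⟨δ, hδ0, hδ⟩ : ∃ δ : ℝ, 0 < δ ∧ Q * δ = ε := ⟨ε / Q, by positivity, by field_simp⟩
  refine ⟨γ, ε, δ, hγ0, hε0, hδ0, fun gr π d W w h hF hγE hεE ho0 ho hw1 hw hact hany hrun hlow => ?_⟩
  obtain ⟨hWK, -⟩ := act_le hact
  rw [Nat.zero_add] at hWK
  have hw1r : (1 : ℝ) ≤ w := by exact_mod_cast hw1
  have hW0 : (0 : ℝ) ≤ W := Nat.cast_nonneg _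
  obtain ⟨t, ht⟩ : ∃ t : ℝ, t = ε * W := ⟨_, rfl⟩
  have hQw : Q * w ≤ t := by
    have := mul_le_mul_of_nonneg_left hw (by linarith : (0 : ℝ) ≤ Q)
    rwa [← mul_assoc, hδ, ← ht] at this
  have hδε : δ ≤ ε := hδ ▸ le_mul_of_one_le_left hδ0.le hQ0
  have hδt : δ * W ≤ t := ht ▸ mul_le_mul_of_nonneg_right hδε hW0
  have hW1 : (1 : ℝ) ≤ W := by
    have : W ≠ 0 := by rintro rfl; simp at hw; linarith
    exact_mod_cast Nat.one_le_iff_ne_zero.2 this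
  have hoW : π.o * W ≤ t := (mul_le_mul_of_nonneg_right ho hW0).trans hδt
  have hot : π.o ≤ t := (le_mul_of_one_le_right ho0 hW1).trans hoW
  have ht0 : 12 * t = r * (δ₀ * W) := by rw [ht, ← mul_assoc, hε, mul_assoc]
  have ht1 : 12 * t ≤ δ₀ * W := ht0 ▸ mul_le_of_le_one_left (by positivity) hr1
  have hq1 : 2 * (m + 1) * (((O.Ml ε : ℝ) + 2) * w) + O.y₀ γ γ * w + w ≤ t := by rw [hQ] at hQw; linarith
  have hq2 : (0 : ℝ) ≤ m * (((O.Ml ε : ℝ) + 2) * w) := by positivity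
  have hq3 : (0 : ℝ) ≤ ((O.Ml ε : ℝ) + 2) * w := by positivity
  have hq4 : (O.y₀ γ γ : ℝ) ≤ O.y₀ γ γ * w := le_mul_of_one_le_right hQ2 hw1r
  have hany' : ∀ i j z, j ≤ W → Path d.El i j z → ((k : ℝ) + 2) * d.A i j - 4 * t ≤ z :=
    fun i j z hj hp => by have := hany i j z hj hp; linarith
  have he1 : 2 * ε * W + 2 * (m + 1) * ((O.Ml ε + 2) * w) + π.o ≤ 4 * t := by
    have : 2 * ε * W = 2 * t := by rw [ht]; ring
    linarith
  have hJ : ∀ j, ¬ d.nar (k - 1) j w ∧ j + w < W → d.Jp m π ⟨k, 0, W, j, w⟩ := fun j hj =>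
    ⟨hact, hk, hF _ _ _ (by simp only; omega) hw1 (by simp only; omega), hj.1, Nat.zero_le _,
      by simpa using hj.2, hw1⟩
  have hx0 : ∀ x : ℕ, δ₀ * W ≤ x → (O.Ml ε + 2) * w ≤ x := fun x hx => by
    have : (((O.Ml ε + 2) * w : ℕ) : ℝ) ≤ x := by push_cast; linarith
    exact_mod_cast this
  have hAd : ∀ i j, i ≤ j → d.A 0 j - d.A 0 i = d.A i j := fun i j hij => by
    rw [A_add d (Nat.zero_le i) hij]; ring
  obtain ⟨w', hw', h1, h2⟩ := hR W (d.A 0) (fun j => ¬ d.nar (k - 1) j w ∧ j + w < W) (by linarith)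
    (A_self d 0)
    (fun i hi => by
      have := h.a0 i (by omega)
      rw [A_succ d (Nat.zero_le i)]
      constructor <;> linarith)
    (fun ρ hρ => by have := hlow ρ hρ; linarith)
    (fun i i' hi hi' hn => by
      rw [hAd i i' hi]
      have := hrun i i' hi hi' fun l h1 h2 => by
        by_contra hc
        exact hn l h1 (by omega) ⟨hc, by omega⟩
      linarith)
    (fun j x hj hx hW => by
      obtain ⟨h1, h2⟩ := cost_two h hεE hε0.le (hJ j hj) hany' he1 (by linarith) (hx0 x hx) hW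
      rw [hAd _ _ (by omega), hAd _ _ (by omega)]
      rw [A_add d (i := j) (j := j + x) (l := j + 2 * x) (by omega) (by omega)] at h2 ⊢
      have hk1 : (1 : ℝ) ≤ k := by exact_mod_cast hk
      by_contra hc
      push Not at hc
      have h3 : d.A (j + x) (j + 2 * x) - d.A j (j + x) ≤ k * (d.A (j + x) (j + 2 * x) - d.A j (j + x)) :=
        le_mul_of_one_le_left (by linarith) hk1
      linarith)
    (fun j y s hj hy hW hs1 hs2 hlin => by
      have hy0 : (0 : ℝ) ≤ y := Nat.cast_nonneg _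
      have h1 := mul_le_mul_of_nonneg_left hy hr0.le
      have h2 := mul_le_mul_of_nonneg_right hr2 hy0
      have h3 := mul_le_mul_of_nonneg_right hr3 hy0
      have h4 : (0 : ℝ) ≤ m * (r * y) := by positivity
      have h5 : (0 : ℝ) ≤ r * y := by positivity
      refine blk_ring h (e := 4 * t) (η := r * y) hγE hγ0 hεE hε0.le ho0 (hJ j hj) hany' he1 (by linarith)
        (by linarith) (by linarith) (by linarith) (by linarith) (by linarith) (hx0 y hy)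
        (by exact_mod_cast (by linarith : (O.y₀ γ γ : ℝ) ≤ y)) hW hs1 hs2 fun x x' h6 h7 => ?_
      rw [← hAd _ _ (by omega)]
      exact hlin x x' h6 h7)
  rw [hγ] at h1 h2
  exact ⟨w', hw', h1, hAd _ _ hw' ▸ h2⟩

end Vale.Agent.P076N.NUM
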