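import Vale.Agent.P076N.NUM.N3

/-!
# P076N, block NUM : case (a)
-/

set_option linter.all false

open Finset

namespace Vale.Agent.P076N.NUM

variable {m : ℕ} {O : Orc} {π : Par} {d : Dat}

/-- the situation of case (a), with the unit of error `t` -/
structure Cs (m : ℕ) (O : Orc) (π : Par) (d : Dat) (c E w : ℕ) (z ε t : ℝ) : Prop where
  ax : Ax m True O π d
  hm : 1 ≤ m
  mem : ε ∈ π.E
  ε0 : 0 ≤ ε
  o0 : 0 ≤ π.o
  jp : d.Jp m π ⟨m, 0, π.K, c, w⟩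
  hK : π.K = c + E
  pth : Path d.El 0 c z
  hz : z ≤ c + t
  hA : ((m : ℝ) + 1) * d.A c (c + E) ≤ E + t
  e1 : 2 * ε * π.K + 2 * (m + 1) * ((O.Ml ε + 2) * w) + π.o ≤ t
  e2 : π.o * π.K ≤ t

namespace Cs

variable {c E w : ℕ} {z ε t : ℝ} (H : Cs m O π d c E w z ε t)
include H

theorem e3 : π.o ≤ t ∧ ((O.Ml ε : ℝ) + 2) * w ≤ t ∧ 2 * ε * π.K ≤ t := by
  have h1 := H.e1
  have h2 : (0 : ℝ) ≤ m * (((O.Ml ε : ℝ) + 2) * w) := by positivity
  have h3 : (0 : ℝ) ≤ ((O.Ml ε : ℝ) + 2) * w := by positivity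
  have h4 : 0 ≤ ε * π.K := mul_nonneg H.ε0 (Nat.cast_nonneg _)
  have h5 := H.o0
  refine ⟨by linarith, by linarith, by linarith⟩

theorem εx {x : ℕ} (hx : x ≤ E) : ε * x ≤ ε * π.K :=
  mul_le_mul_of_nonneg_left (by exact_mod_cast (by have := H.hK; omega : x ≤ π.K)) H.ε0

theorem ox {x : ℕ} (hx : x ≤ E) : π.o * (((c + x : ℕ) : ℝ) - c) ≤ t := by
  refine le_trans (mul_le_mul_of_nonneg_left ?_ H.o0) H.e2
  push_cast
  have : (x : ℝ) ≤ π.K := by exact_mod_cast (by have := H.hK; omega : x ≤ π.K)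
  linarith

theorem up {x : ℕ} (h1 : (O.Ml ε + 2) * w ≤ x) (h2 : x ≤ E) :
    d.cost ⟨m, 0, π.K, c, w⟩ x ≤ 2 * (m + 1) * d.A c (c + x) + t := by
  have h3 := cost_le H.ax H.mem H.ε0 H.jp h1 (by have := H.hK; simp only; omega)
  have := H.εx h2
  have := H.e1
  simp only at h3
  linarith

theorem gb {x : ℕ} (h1 : (O.Ml ε + 2) * w ≤ x) (h2 : x ≤ E) :
    2 * (x : ℝ) - 2 * t ≤ d.cost ⟨m, 0, π.K, c, w⟩ x := by
  have h3 := H.ax.gb _ x z trivial H.jp rfl (le_trans (Nat.mul_le_mul_right _ (by omega)) h1)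
    (by have := H.hK; simp only; omega) H.pth
  have := H.hz
  have := H.e3.1
  simp only at h3
  linarith

theorem low {x : ℕ} (h1 : (O.Ml ε + 2) * w ≤ x) (h2 : x ≤ E) :
    2 * (m + 1) * d.A c (c + x) - 5 * t ≤ d.cost ⟨m, 0, π.K, c, w⟩ x := by
  have h3 := lw_long H.ax H.mem H.ε0 H.jp h1 h2 (by have := H.hK; simp only; omega)
  have h4 := H.gb (h1.trans h2) le_rfl
  have h5 := H.hA
  rw [A_add d (i := c) (j := c + x) (l := c + E) (by omega) (by omega)] at h5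
  have := H.εx (le_refl E)
  have := H.e3.2.2
  simp only at h3
  linarith

theorem dif {x x' : ℕ} (h1 : (O.Ml ε + 2) * w ≤ x) (h2 : x ≤ x') (h3 : x' ≤ E) :
    2 * (m + 1) * d.A (c + x) (c + x') - 6 * t ≤ d.cost ⟨m, 0, π.K, c, w⟩ x' - d.cost ⟨m, 0, π.K, c, w⟩ x := by
  have h4 := H.up h1 (h2.trans h3)
  have h5 := H.low (h1.trans h2) h3
  rw [A_add d (i := c) (j := c + x) (l := c + x') (by omega) (by omega)] at h5
  linarith

theorem pj {x₀ x₁ x₂ : ℕ} {g : ℝ} (h0 : (O.Ml ε + 2) * w ≤ x₀) (h1 : x₀ ≤ x₁) (h2 : x₁ < x₂) (h3 : x₂ ≤ 2 * x₀)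
    (h4 : x₂ ≤ E) (hg : 0 ≤ g) (h5 : d.A (c + x₁) (c + x₂) ≤ g * ((x₂ : ℝ) - x₁)) :
    d.G c (c + 2 * (x₁ - x₀)) ≤ 2 * m * ((x₂ : ℝ) - x₀ - d.A (c + x₀) (c + x₂) + g * ((x₁ : ℝ) - x₀)) + 7 * t := by
  have h6 := H.ax.pj _ x₀ x₁ x₂ g H.jp rfl (le_trans (Nat.mul_le_mul_right _ (by omega)) h0) h1 h2 h3
    (by have := H.hK; simp only; omega) hg h5
  have h7 := H.dif h0 (by omega : x₀ ≤ x₂) h4
  have := H.e3.1
  simp only at h6
  linarith

theorem rich {u : ℕ} (hu : 2 * u ≤ E) : ((m : ℝ) - 2) * u - (4 * m + 14) * t ≤ (m + 1) * d.G c (c + 2 * u) := by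
  have hK := H.hK
  obtain ⟨e1, e2, -⟩ := H.e3
  have ht : 0 ≤ t := H.o0.trans e1
  have hm : (1 : ℝ) ≤ m := by exact_mod_cast H.hm
  have hG := G_nonneg H.ax (i := c) (j := c + 2 * u) (by omega)
  have hmt : t ≤ m * t := le_mul_of_one_le_left ht hm
  have hu0 : (0 : ℝ) ≤ u := Nat.cast_nonneg _
  by_cases h1 : (O.Ml ε + 2) * w ≤ u
  · have hw : 1 ≤ w := H.jp.2.2.2.2.2.2
    have hu1 : 1 ≤ u := le_trans (Nat.mul_pos (by omega) hw) h1
    have a1 := H.ax.gp (c + u) _ (Or.inl ⟨trivial, by omega⟩)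
      (path_trans H.pth (std_path H.ax (by omega : c ≤ c + u) (by omega)))
    have a2 := Φ_le_G H.ax (by omega : c ≤ c + u) (by omega)
    have a3 := H.ox (x := u) (by omega)
    have a4 := G_mono H.ax (le_refl c) (by omega : c ≤ c + u) (by omega : c + u ≤ c + 2 * u) (by omega)
    have a5 := H.hz
    have a6 : (u : ℝ) - 2 * d.A c (c + u) - 4 * t ≤ d.G c (c + 2 * u) := by
      have : ((c + u : ℕ) : ℝ) = c + u := by push_cast; ring
      linarith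
    have b1 := H.ax.bp _ u H.jp rfl (le_trans (Nat.mul_le_mul_right _ (by omega)) h1) (by simp only; omega)
    have b2 := Φ_le_G H.ax (by omega : c ≤ c + 2 * u) (by omega)
    have b3 := H.ox hu
    have b4 := H.low h1 (by omega)
    have b5 := H.pj (g := 1 + (m : ℝ) / 2) h1 le_rfl (by omega : u < 2 * u) le_rfl hu (by positivity) (by
      have := A_le H.ax (i := c + u) (j := c + 2 * u) (by omega) (by omega)
      push_cast at this ⊢
      linarith)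
    simp only [Nat.sub_self, Nat.mul_zero, Nat.add_zero, G_self, sub_self, mul_zero, add_zero] at b5
    push_cast at b5
    have b6 : 2 * d.A (c + u) (c + 2 * u) ≤ 2 * u + 7 * t := by
      refine le_of_mul_le_mul_left ?_ (by linarith : (0 : ℝ) < m)
      linarith
    simp only at b1
    rw [A_add d (i := c) (j := c + u) (l := c + 2 * u) (by omega) (by omega)] at b1
    have a7 := mul_le_mul_of_nonneg_left a6 (by linarith : (0 : ℝ) ≤ m)
    linarith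
  · have h2 : (u : ℝ) ≤ ((O.Ml ε + 2) * w : ℕ) := by exact_mod_cast (not_le.1 h1).le
    push_cast at h2
    have h3 := mul_le_mul_of_nonneg_left (h2.trans e2) (by linarith : (0 : ℝ) ≤ m)
    have h4 := mul_nonneg (by linarith : (0 : ℝ) ≤ m + 1) hG
    linarith

theorem ring {γ r δ : ℝ} (hγ : γ ∈ π.E) (hm : 3 ≤ m) (hγm : ((m : ℝ) + 1) * γ ≤ 1 / 2) (hr0 : 0 ≤ r) (hr1 : r ≤ 1)
    (hr : (2 * m + 3) * r ≤ O.er γ γ) (ht : (12 * m + 28) * t ≤ r * δ) (hy0 : (O.y₀ γ γ : ℝ) ≤ t)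
    {x₀ y : ℕ} {s : ℝ} (h1 : δ ≤ y) (h2 : O.M γ γ * y ≤ x₀) (h3 : x₀ + O.M γ γ * y ≤ E) (h4 : γ ≤ s)
    (h5 : s ≤ 1 - γ) (h6 : ∀ x x' : ℕ, x₀ ≤ x → x ≤ x' → x' ≤ x₀ + O.M γ γ * y →
      |(x' : ℝ) - x - d.A (c + x) (c + x') - s * ((x' : ℝ) - x)| ≤ r * y) : False := by
  have hK := H.hK
  obtain ⟨e1, e2, -⟩ := H.e3
  have ht0 : 0 ≤ t := H.o0.trans e1
  have hmr : (3 : ℝ) ≤ m := by exact_mod_cast hm
  have hmt : 3 * t ≤ m * t := mul_le_mul_of_nonneg_right hmr ht0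
  have hy : (0 : ℝ) ≤ y := Nat.cast_nonneg _
  have a1 : r * δ ≤ r * y := mul_le_mul_of_nonneg_left h1 hr0
  have a2 : r * y ≤ y := mul_le_of_le_one_left hy hr1
  have a3 := mul_le_mul_of_nonneg_right hr hy
  have a4 : (0 : ℝ) ≤ m * (r * y) := by positivity
  have a5 : (0 : ℝ) ≤ r * y := by positivity
  have hyM : y ≤ O.M γ γ * y := Nat.le_mul_of_pos_left _ (O.one γ γ)
  have hx0 : (O.Ml ε + 2) * w ≤ y := by
    have : (((O.Ml ε + 2) * w : ℕ) : ℝ) ≤ y := by push_cast; linarith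
    exact_mod_cast this
  have hw : (w : ℝ) ≤ ((O.Ml ε : ℝ) + 2) * w :=
    le_mul_of_one_le_left (Nat.cast_nonneg _) (by have := Nat.cast_nonneg (α := ℝ) (O.Ml ε); linarith)
  refine H.ax.ring γ hγ γ hγ ⟨m, 0, π.K, c, w⟩ x₀ y s H.jp
    (le_trans (Nat.mul_le_mul_right _ (by omega)) (hx0.trans (hyM.trans h2)))
    (by exact_mod_cast (by linarith : (O.y₀ γ γ : ℝ) ≤ y)) (by simp only; linarith) h2
    (by simp only; omega) h4 h5 (fun x x' b1 b2 b3 => ?_) ?_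
  · obtain ⟨b4, b5⟩ := abs_le.1 (h6 x x' b1 b2 b3)
    have b6 := H.dif (x := x) (x' := x') (by omega) b2 (by omega)
    simp only
    refine ⟨abs_le.2 ⟨by linarith, by linarith⟩, ?_⟩
    have b7 := mul_le_mul_of_nonneg_left b5 (by linarith : (0 : ℝ) ≤ 2 * (m + 1))
    linarith
  · simp only
    have b1 := H.rich (u := y) (by omega)
    have b2 := mul_le_mul_of_nonneg_right hγm hy
    have b3 := mul_le_mul_of_nonneg_right hmr hy
    refine le_of_mul_le_mul_left ?_ (by linarith : (0 : ℝ) < m + 1)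
    linarith

end Cs

theorem ca : RowCA := by
  intro hRC m O η hm hη
  have hmr : (3 : ℝ) ≤ m := by exact_mod_cast hm
  obtain ⟨γ, hγ0, hγ⟩ : ∃ γ : ℝ, 0 < γ ∧ 8 * m * ((m + 1) * γ) = 1 :=
    ⟨1 / (8 * m * (m + 1)), by positivity, by field_simp⟩
  obtain ⟨ρ, hρ⟩ : ∃ ρ : ℝ, (m + 1) * ρ = m := ⟨m / (m + 1), by field_simp⟩
  obtain ⟨c₀, hc₀⟩ : ∃ c₀ : ℝ, 2 * m * ((m + 1) * c₀) = m - 2 := ⟨(m - 2) / (2 * m * (m + 1)), by field_simp⟩
  have hγm : ((m : ℝ) + 1) * γ ≤ 1 / 2 := by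
    have := mul_le_mul_of_nonneg_right hmr (by positivity : (0 : ℝ) ≤ (m + 1) * γ)
    linarith
  have her := O.pos γ γ
  obtain ⟨r, hr0, hr1, hr2⟩ : ∃ r : ℝ, 0 < r ∧ r ≤ 1 ∧ (2 * (m : ℝ) + 3) * r ≤ O.er γ γ := by
    have h0 : 0 < min 1 (O.er γ γ) := lt_min one_pos her
    refine ⟨min 1 (O.er γ γ) / (2 * (m : ℝ) + 3), by positivity, ?_, ?_⟩
    · rw [div_le_one (by positivity)]
      exact (min_le_left _ _).trans (by linarith)
    · rw [mul_div_cancel₀ _ (by positivity)]; exact min_le_right _ _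
  obtain ⟨δ₀, hδ₀, hR⟩ := hRC (m + 2) ρ c₀ γ r (O.M γ γ) hγ0
    (lt_of_mul_lt_mul_left (a := 8 * m * ((m : ℝ) + 1)) (by linarith) (by positivity))
    (lt_of_mul_lt_mul_left (a := (m : ℝ) + 1) (by linarith) (by positivity))
    (lt_of_mul_lt_mul_left (a := (m : ℝ) + 1) (by linarith) (by positivity)) hr0
  obtain ⟨ε, hε0, hε⟩ : ∃ ε : ℝ, 0 < ε ∧ (12 * m + 28) * (4 * ε) = r * δ₀ * η :=
    ⟨r * δ₀ * η / (4 * (12 * m + 28)), by positivity, by field_simp⟩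
  obtain ⟨Q, hQ⟩ : ∃ Q : ℝ, Q = 2 * (m + 1) * ((O.Ml ε : ℝ) + 2) + O.y₀ γ γ + 1 := ⟨_, rfl⟩
  have hQ1 : (0 : ℝ) ≤ 2 * (m + 1) * ((O.Ml ε : ℝ) + 2) := by positivity
  have hQ2 : (0 : ℝ) ≤ O.y₀ γ γ := Nat.cast_nonneg _
  have hQ0 : 1 ≤ Q := by linarith
  obtain ⟨δ, hδ0, hδ⟩ : ∃ δ : ℝ, 0 < δ ∧ Q * δ = ε := ⟨ε / Q, by positivity, by field_simp⟩
  refine ⟨γ, ε, δ, hγ0, hε0, hδ0, fun π d c w z h hγE hεE ho0 ho hJ hw hc hp hz hA => ?_⟩
  have hw1 : 1 ≤ w := hJ.2.2.2.2.2.2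
  have hcK : c + w < 0 + π.K := hJ.2.2.2.2.2.1
  obtain ⟨E, hE⟩ : ∃ E, π.K = c + E := ⟨π.K - c, by omega⟩
  have hEr : (π.K : ℝ) = c + E := by rw [hE]; push_cast; ring
  have hw1r : (1 : ℝ) ≤ w := by exact_mod_cast hw1
  have hK1 : (1 : ℝ) ≤ π.K := by exact_mod_cast (by omega : 1 ≤ π.K)
  have hK0 : (0 : ℝ) ≤ π.K := by linarith
  obtain ⟨v, hv⟩ : ∃ v : ℝ, v = ε * π.K := ⟨_, rfl⟩
  have hQw : Q * w ≤ v := by
    have := mul_le_mul_of_nonneg_left hw (by linarith : (0 : ℝ) ≤ Q)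
    rwa [← mul_assoc, hδ, ← hv] at this
  have hδε : δ ≤ ε := hδ ▸ le_mul_of_one_le_left hδ0.le hQ0
  have hδv : δ * π.K ≤ v := hv ▸ mul_le_mul_of_nonneg_right hδε hK0
  have hoK : π.o * π.K ≤ v := (mul_le_mul_of_nonneg_right ho hK0).trans hδv
  have hov : π.o ≤ v := (le_mul_of_one_le_right ho0 hK1).trans hoK
  have hv0 : 0 ≤ v := ho0.trans hov
  have hq1 : 2 * (m + 1) * (((O.Ml ε : ℝ) + 2) * w) + O.y₀ γ γ * w + w ≤ v := by rw [hQ] at hQw; linarith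
  have hq2 : (0 : ℝ) ≤ 2 * (m + 1) * (((O.Ml ε : ℝ) + 2) * w) := by positivity
  have hq4 : (O.y₀ γ γ : ℝ) ≤ O.y₀ γ γ * w := le_mul_of_one_le_right hQ2 hw1r
  have ht : (12 * m + 28) * (4 * v) ≤ r * (δ₀ * E) := by
    have h1 : (12 * (m : ℝ) + 28) * (4 * v) = r * (δ₀ * (η * π.K)) := by
      rw [hv, ← mul_assoc r, ← mul_assoc _ η, ← hε]; ring
    rw [h1]
    have : η * π.K ≤ E := by linarith
    gcongr
  have ht1 : r * (δ₀ * E) ≤ δ₀ * E := mul_le_of_le_one_left (by positivity) hr1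
  have hmv : 3 * v ≤ m * v := mul_le_mul_of_nonneg_right hmr hv0
  have H : Cs m O π d c E w z ε (4 * v) :=
    ⟨h, by omega, hεE, hε0.le, ho0, hJ, hE, hp, by linarith, by rw [← hE]; linarith,
      by have : 2 * ε * π.K = 2 * v := by rw [hv]; ring
         linarith, by linarith⟩
  have hx0 : ∀ x : ℕ, δ₀ * E ≤ x → (O.Ml ε + 2) * w ≤ x := fun x hx => by
    have := H.e3.2.1
    have : (((O.Ml ε + 2) * w : ℕ) : ℝ) ≤ x := by push_cast; linarith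
    exact_mod_cast this
  have hAd : ∀ i j : ℕ, i ≤ j → (j : ℝ) - d.A c (c + j) - (i - d.A c (c + i)) = j - i - d.A (c + i) (c + j) :=
    fun i j hij => by
      rw [A_add d (i := c) (j := c + i) (l := c + j) (by omega) (by omega)]; ring
  have hδE : 0 ≤ δ₀ * E := by positivity
  have hmδ : 0 ≤ m * (δ₀ * E) := by positivity
  refine hR E (fun x => x - d.A c (c + x)) (by linarith) (by simp) (fun i hi => ?_) (fun x hx => ?_) ?_
    (fun x₀ y s h1 h2 h3 h4 h5 h6 => ?_) (fun x₀ x₁ x₂ g h1 h2 h3 h4 h5 h6 h7 => ?_)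
  · have := h.a0 (c + i) (by omega)
    rw [← add_assoc, A_succ d (by omega)]
    push_cast
    exact abs_le.2 ⟨by linarith, by linarith⟩
  · refine le_of_mul_le_mul_left ?_ (by linarith : (0 : ℝ) < m + 1)
    rw [mul_add, ← mul_assoc, hρ]
    by_cases h1 : (O.Ml ε + 2) * w ≤ x
    · have := H.up h1 hx
      have := H.gb h1 hx
      linarith
    · have h2 : (x : ℝ) ≤ ((O.Ml ε + 2) * w : ℕ) := by exact_mod_cast (not_le.1 h1).le
      push_cast at h2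
      have h3 := H.e3.2.1
      have h4 := mul_nonneg (by linarith : (0 : ℝ) ≤ m + 1) (A_nonneg h (i := c) (j := c + x) (by omega))
      linarith
  · refine le_of_mul_le_mul_left ?_ (by linarith : (0 : ℝ) < m + 1)
    rw [mul_sub, ← mul_assoc, hρ]
    have := H.hA
    linarith
  · refine H.ring hγE hm hγm hr0.le hr1 hr2 ht (by linarith) h1 h2 h3 h4 h5 fun x x' b1 b2 b3 => ?_
    rw [← hAd x x' b2]
    exact h6 x x' b1 b2 b3
  · rw [hAd _ _ h3.le] at h7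
    rw [hAd _ _ (by omega : x₀ ≤ x₂)]
    have b1 := H.pj (hx0 _ h1) h2 h3 h4 h5 h6 (by linarith)
    have b2 := H.rich (u := x₁ - x₀) (by omega)
    rw [Nat.cast_sub h2] at b2
    have b3 := mul_le_mul_of_nonneg_left b1 (by linarith : (0 : ℝ) ≤ m + 1)
    refine le_of_mul_le_mul_left ?_ (by positivity : (0 : ℝ) < 2 * m * (m + 1))
    have b4 : 2 * (m : ℝ) * (m + 1) * (c₀ * ((x₁ : ℝ) - x₀)) = (m - 2) * ((x₁ : ℝ) - x₀) := by
      rw [← hc₀]; ring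
    have b5 : 0 ≤ m * (m * (δ₀ * E)) := by positivity
    have b6 := mul_le_mul_of_nonneg_right hmr hδE
    rw [b4]
    linarith

end Vale.Agent.P076N.NUM
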