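import Vale.Agent.P076N.NUM.Basic

/-!
# P076N, block NUM : greedy paths
-/

set_option linter.all false

open Finset

namespace Vale.Agent.P076N.NUM

theorem dens {f : ℕ → ℝ} {X L ε : ℝ} {I : ℕ} (hX : 0 < X) (h0 : f 0 ≤ L * X) (hI : 0 ≤ f I)
    (hIL : 2 * L < I * ε) : ∃ i < I, 2 * f i - ε * (X * 2 ^ i) ≤ f (i + 1) := by
  by_contra hc
  push Not at hc
  have key : ∀ i ≤ I, f i ≤ X * 2 ^ i * (L - i * ε / 2) := by
    intro i
    induction i with
    | zero => intro _; simpa [mul_comm] using h0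
    | succ i ih =>
      intro hi
      have h1 := ih (by omega)
      have h2 := hc i (by omega)
      push_cast
      rw [pow_succ]
      nlinarith
  have h1 := key I le_rfl
  have h2 : 0 < X * 2 ^ I := by positivity
  have h3 : L - I * ε / 2 < 0 := by linarith
  nlinarith

/-- one jump from a broad level -/
theorem jump_step (m : ℕ) (O : Orc) {ε : ℝ} (hε : 0 < ε) : ∃ Λ : ℕ, 2 ≤ Λ ∧
    ∀ (gr : Prop) (π : Par) (d : Dat) (s : Jm), Ax m gr O π d → ε ∈ π.E → π.o ≤ ε → d.Jp m π s →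
      s.j + Λ * s.w ≤ s.J + s.W → ∃ l : ℕ, 1 ≤ l ∧ l ≤ Λ * s.w ∧ ∃ z, Path d.El s.j (s.j + l) z ∧
        z ≤ ((s.k : ℝ) + 2) * d.A s.j (s.j + l) + ((m : ℝ) + 5) * ε * l := by
  obtain ⟨n0, hn0⟩ := exists_nat_gt (2 * ((m : ℝ) + 1) / ε)
  obtain ⟨I, hI⟩ := exists_nat_gt (2 * (1 + (m : ℝ) / 2) / ε)
  rw [div_lt_iff₀ hε] at hn0 hI
  have hn1 : 1 ≤ n0 := by
    rcases Nat.eq_zero_or_pos n0 with h | h
    · subst h
      have : (0 : ℝ) ≤ m := Nat.cast_nonneg m
      simp at hn0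
      linarith
    · exact h
  refine ⟨n0 * (O.Ml ε + 2) * 2 ^ I, ?_, ?_⟩
  · have : 1 ≤ 2 ^ I := Nat.one_le_two_pow
    calc 2 = 1 * 2 * 1 := by norm_num
      _ ≤ n0 * (O.Ml ε + 2) * 2 ^ I := Nat.mul_le_mul (Nat.mul_le_mul hn1 (by omega)) this
  intro gr π d s h hE ho hs hΛ
  have hw : 1 ≤ s.w := hs.2.2.2.2.2.2
  obtain ⟨hK, hk⟩ := act_le hs.1
  set x0 := (O.Ml ε + 2) * s.w with hx0
  set X := n0 * x0 with hX
  have hx0p : 1 ≤ x0 := Nat.mul_pos (by omega) hw
  have hXp : x0 ≤ X := Nat.le_mul_of_pos_left _ hn1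
  have hΛ' : n0 * (O.Ml ε + 2) * 2 ^ I * s.w = X * 2 ^ I := by rw [hX, hx0]; ring
  rw [hΛ'] at hΛ ⊢
  have hXI : X ≤ X * 2 ^ I := Nat.le_mul_of_pos_right _ (by positivity)
  obtain ⟨i, hi, hd⟩ := dens (f := fun i => d.A s.j (s.j + X * 2 ^ i)) (X := X) (L := 1 + (m : ℝ) / 2)
    (ε := ε) (I := I) (by exact_mod_cast (by omega : 0 < X))
    (by
      have := A_le h (i := s.j) (j := s.j + X * 2 ^ 0) (by omega) (by omega)
      simpa using this)
    (A_nonneg h (by omega)) hI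
  set x := X * 2 ^ i with hx
  have hxX : X ≤ x := Nat.le_mul_of_pos_right _ (by positivity)
  have h2x : X * 2 ^ (i + 1) = 2 * x := by rw [hx, pow_succ]; ring
  have h2I : 2 * x ≤ X * 2 ^ I := by
    rw [← h2x]
    exact Nat.mul_le_mul_left _ (Nat.pow_le_pow_right (by norm_num) hi)
  simp only [h2x] at hd
  have hxr : (X : ℝ) * 2 ^ i = x := by rw [hx]; push_cast; ring
  rw [hxr] at hd
  refine ⟨2 * x, by omega, h2I, _, path_one (h.jmp s x hs ?_ (by omega)), ?_⟩
  · calc 2 * s.w ≤ x0 := Nat.mul_le_mul_right _ (by omega)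
      _ ≤ x := by omega
  have hc := cost_le h hE hε.le hs (x := x) (by omega) (by omega)
  rw [A_add d (i := s.j) (j := s.j + x) (l := s.j + 2 * x) (by omega) (by omega)] at hd ⊢
  have hx0r : ((O.Ml ε : ℝ) + 2) * s.w = x0 := by rw [hx0]; push_cast; ring
  rw [hx0r] at hc
  have h1 : 2 * ((m : ℝ) + 1) * x0 ≤ ε * x := by
    have : (X : ℝ) ≤ x := by exact_mod_cast hxX
    have h2 : (X : ℝ) = n0 * x0 := by rw [hX]; push_cast; ring
    have h3 : (0 : ℝ) ≤ x0 := Nat.cast_nonneg _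
    nlinarith
  have hx1 : (1 : ℝ) ≤ x := by exact_mod_cast (by omega : 1 ≤ x)
  have hkr : (s.k : ℝ) ≤ m := by exact_mod_cast hk
  have hk0 : (0 : ℝ) ≤ s.k := Nat.cast_nonneg _
  have h4 : (s.k : ℝ) * (d.A s.j (s.j + x) - d.A (s.j + x) (s.j + 2 * x)) ≤ s.k * (ε * x) :=
    mul_le_mul_of_nonneg_left (by linarith) hk0
  have h5 : ε ≤ ε * x := by nlinarith
  have h6 : (s.k : ℝ) * (ε * x) ≤ m * (ε * x) := mul_le_mul_of_nonneg_right hkr (by positivity)
  have h7 : 0 ≤ (m : ℝ) * (ε * x) := by positivity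
  push_cast
  nlinarith

theorem gr : GR := by
  intro m O ε hε
  set ε₁ : ℝ := min 1 (ε / (((m : ℝ) + 2) * (m + 5))) with hε₁
  have hε₁0 : 0 < ε₁ := lt_min one_pos (by positivity)
  have hε₁1 : ε₁ ≤ 1 := min_le_left _ _
  have hε₁2 : ((m : ℝ) + 2) * ((m + 5) * ε₁) ≤ ε := by
    have := min_le_right 1 (ε / (((m : ℝ) + 2) * (m + 5)))
    rw [← hε₁, le_div_iff₀ (by positivity)] at this
    linarith
  obtain ⟨Λ, hΛ, hJ⟩ := jump_step m O hε₁0
  set c : ℝ := ((m : ℝ) + 5) * ε₁ with hc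
  have hc0 : 0 < c := by positivity
  obtain ⟨r0, hr0⟩ := exists_nat_gt (((m : ℝ) + 3) * Λ / c)
  rw [div_lt_iff₀ hc0] at hr0
  set r := r0 + 1 with hr
  have hr1 : 1 ≤ r := by omega
  have hrc : ((m : ℝ) + 3) * Λ ≤ c * r := by rw [hr]; push_cast; nlinarith
  have hpow : ∀ k ≤ m, r ^ k ≤ r ^ m := fun k hk => Nat.pow_le_pow_right hr1 hk
  have hp1 : ∀ k, 1 ≤ r ^ k := fun k => Nat.one_le_pow _ _ hr1
  have hBn : ∀ k ≤ m, r ^ k ≤ (m + 3) * Λ * r ^ m := fun k hk =>
    (hpow k hk).trans (Nat.le_mul_of_pos_left _ (Nat.mul_pos (by omega) (by omega)))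
  refine ⟨ε₁, fun k => r ^ k, (m + 3) * Λ * r ^ m, hε₁0, fun k hk => ⟨hp1 k, hBn k hk.le⟩, ?_⟩
  intro gr π d h hF hE ho0 ho
  set b : ℕ → ℝ := fun k => if k = 0 then 0 else ((m : ℝ) + 3) * Λ * (r ^ (k - 1) : ℕ) with hb
  have hbc : ∀ k, b k ≤ c * (r ^ k : ℕ) := by
    intro k
    rcases k with _ | k
    · simp [hb, hc0.le]
    · simp only [hb, Nat.succ_ne_zero, if_false, Nat.add_sub_cancel]
      push_cast
      rw [pow_succ]
      have : (0 : ℝ) ≤ (r : ℝ) ^ k := by positivity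
      nlinarith
  have hbB : ∀ k ≤ m, b k ≤ (((m + 3) * Λ * r ^ m : ℕ) : ℝ) := by
    intro k hk
    rcases k with _ | k
    · simp only [hb, if_true]; positivity
    · simp only [hb, Nat.succ_ne_zero, if_false, Nat.add_sub_cancel]
      have : ((r ^ k : ℕ) : ℝ) ≤ (r ^ m : ℕ) := by exact_mod_cast hpow k (by omega)
      push_cast at this ⊢
      exact mul_le_mul_of_nonneg_left this (by positivity)
  have P : ∀ k J W, d.Act m π k J W → ∀ i i', J ≤ i → i ≤ i' → i' ≤ J + W → ∃ z, Path d.El i i' z ∧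
      z ≤ ((k : ℝ) + 2) * d.A i i' + ((k : ℝ) + 1) * c * ((i' : ℝ) - i) + b k := by
    intro k
    induction k with
    | zero =>
      intro J W ha i i' h1 h2 h3
      obtain ⟨z, hp, hz⟩ := std_blk h ha h1 h2 h3
      refine ⟨z, hp, ?_⟩
      have h4 : (0 : ℝ) ≤ (i' : ℝ) - i := by have : (i : ℝ) ≤ i' := by exact_mod_cast h2
                                             linarith
      have h5 : 3 * π.o ≤ c := by
        have : (0 : ℝ) ≤ m := Nat.cast_nonneg m
        nlinarith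
      simp only [hb, if_true]
      push_cast at hz ⊢
      nlinarith
    | succ k ih =>
      intro J W ha i i' h1 h2 h3
      obtain ⟨hK, hk⟩ := act_le ha
      have hkr : (k : ℝ) + 1 ≤ m := by exact_mod_cast hk
      have hk0 : (0 : ℝ) ≤ k := Nat.cast_nonneg _
      have hw := hp1 k
      have hΛw : 2 * r ^ k ≤ Λ * r ^ k := Nat.mul_le_mul_right _ hΛ
      induction hn : i' - i using Nat.strong_induction_on generalizing i with
      | _ n ihn =>
      have hA := A_nonneg h (i := i) (j := i') (by omega)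
      have h4 : (i : ℝ) ≤ i' := by exact_mod_cast h2
      by_cases hs : i' < i + Λ * r ^ k
      · obtain ⟨z, hp, hz⟩ := std_blk h ha h1 h2 h3
        refine ⟨z, hp, ?_⟩
        have h5 : (i' : ℝ) - i ≤ Λ * (r ^ k : ℕ) := by
          have : ((i' : ℕ) : ℝ) ≤ (i + Λ * r ^ k : ℕ) := by exact_mod_cast hs.le
          push_cast at this ⊢
          linarith
        simp only [hb, Nat.succ_ne_zero, if_false, Nat.add_sub_cancel]
        have h6 : (((k + 1 : ℕ) : ℝ) + 3 * π.o) * ((i' : ℝ) - i) ≤ ((m : ℝ) + 3) * (Λ * (r ^ k : ℕ)) :=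
          mul_le_mul (by push_cast; linarith) h5 (by linarith) (by positivity)
        have h7 : 0 ≤ (((k + 1 : ℕ) : ℝ) + 1) * c * ((i' : ℝ) - i) := by
          have : (0 : ℝ) ≤ (i' : ℝ) - i := by linarith
          positivity
        push_cast at hz h6 h7 ⊢
        nlinarith
      · have step : ∃ l : ℕ, 1 ≤ l ∧ l ≤ Λ * r ^ k ∧ ∃ z, Path d.El i (i + l) z ∧
            z ≤ ((k : ℝ) + 3) * d.A i (i + l) + ((k : ℝ) + 2) * c * l := by
          have hT := hF k i (r ^ k) (by omega) hw (by omega)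
          by_cases hnar : d.nar k i (r ^ k)
          · obtain ⟨z, hp, hz⟩ := ih i (r ^ k) (Or.inr ⟨hT, by omega, hw, by omega, hnar⟩) i (i + r ^ k)
              le_rfl (by omega) le_rfl
            refine ⟨r ^ k, hw, by omega, z, hp, ?_⟩
            have h5 := A_nonneg h (i := i) (j := i + r ^ k) (by omega)
            have h6 := hbc k
            push_cast at hz h6 ⊢
            nlinarith
          · obtain ⟨l, hl1, hl2, z, hp, hz⟩ := hJ gr π d ⟨k + 1, J, W, i, r ^ k⟩ h hE ho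
              ⟨ha, by simp, by simpa using hT, by simpa using hnar, h1, by simp only; omega, hw⟩
              (by simp only; omega)
            refine ⟨l, hl1, hl2, z, hp, ?_⟩
            have h5 : (0 : ℝ) ≤ c * l := by positivity
            simp only at hz
            push_cast at hz
            nlinarith
        obtain ⟨l, hl1, hl2, z, hp, hz⟩ := step
        obtain ⟨z', hp', hz'⟩ := ihn (i' - (i + l)) (by omega) (i + l) (by omega) (by omega) rfl
        refine ⟨z + z', path_trans hp hp', ?_⟩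
        rw [A_add d (i := i) (j := i + l) (l := i') (by omega) (by omega)]
        push_cast at hz' ⊢
        linarith
  have hKr : ∀ i i' : ℕ, i' ≤ π.K → ∀ k : ℝ, 0 ≤ k → k ≤ m + 2 → k * c * ((i' : ℝ) - i) ≤ ε * π.K := by
    intro i i' h1 k hk0 hk
    have h2 : (i' : ℝ) ≤ π.K := by exact_mod_cast h1
    have h3 : (0 : ℝ) ≤ i := Nat.cast_nonneg _
    have h4 : (0 : ℝ) ≤ π.K := Nat.cast_nonneg _
    calc k * c * ((i' : ℝ) - i) ≤ k * c * π.K := mul_le_mul_of_nonneg_left (by linarith) (by positivity)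
      _ ≤ ε * π.K := mul_le_mul_of_nonneg_right (by nlinarith) h4
  refine ⟨fun k J W ha i i' h1 h2 h3 => ?_, fun k hk i i' h1 h2 h3 => ?_⟩
  · obtain ⟨hK, hk⟩ := act_le ha
    obtain ⟨z, hp, hz⟩ := P k J W ha i i' h1 h2 h3
    have hkr : (k : ℝ) ≤ m := by exact_mod_cast hk
    have := hKr i i' (by omega) ((k : ℝ) + 1) (by positivity) (by linarith)
    have := hbB k hk
    exact ⟨z, hp, by linarith⟩
  · have hkr : (k : ℝ) + 1 ≤ m := by exact_mod_cast hk
    have hk0 : (0 : ℝ) ≤ k := Nat.cast_nonneg _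
    have hw := hp1 k
    have key : ∃ z, Path d.El i i' z ∧ z ≤ ((k : ℝ) + 2) * d.A i i' + ((k : ℝ) + 2) * c * ((i' : ℝ) - i) +
        (((m + 3) * Λ * r ^ m : ℕ) : ℝ) := by
      induction hn : i' - i using Nat.strong_induction_on generalizing i with
      | _ n ihn =>
      have hA := A_nonneg h (i := i) (j := i') h2
      have h4 : (i : ℝ) ≤ i' := by exact_mod_cast h1
      by_cases hs : i' ≤ i + r ^ k
      · obtain ⟨z, hp, hz⟩ := std_blk h (act_top d m π) (Nat.zero_le i) h1 (by omega)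
        refine ⟨z, hp, ?_⟩
        have h5 : (i' : ℝ) - i ≤ Λ * (r ^ m : ℕ) := by
          have h6 : i' ≤ i + Λ * r ^ m := by
            have := hpow k hk.le
            have : r ^ m ≤ Λ * r ^ m := Nat.le_mul_of_pos_left _ (by omega)
            omega
          have : ((i' : ℕ) : ℝ) ≤ (i + Λ * r ^ m : ℕ) := by exact_mod_cast h6
          push_cast at this ⊢
          linarith
        have h6 : ((m : ℝ) + 3 * π.o) * ((i' : ℝ) - i) ≤ ((m : ℝ) + 3) * (Λ * (r ^ m : ℕ)) :=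
          mul_le_mul (by linarith) h5 (by linarith) (by positivity)
        have h7 : 0 ≤ ((k : ℝ) + 2) * c * ((i' : ℝ) - i) := by
          have : (0 : ℝ) ≤ (i' : ℝ) - i := by linarith
          positivity
        push_cast at hz h6 h7 ⊢
        nlinarith
      · have hT := hF k i (r ^ k) hk hw (by omega)
        obtain ⟨z, hp, hz⟩ := P k i (r ^ k) (Or.inr ⟨hT, hk, hw, by omega, h3 i le_rfl (by simp only; omega)⟩)
          i (i + r ^ k) le_rfl (by omega) le_rfl
        obtain ⟨z', hp', hz'⟩ := ihn (i' - (i + r ^ k)) (by omega) (i + r ^ k) (by omega)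
          (fun l hl => h3 l (by omega)) rfl
        refine ⟨z + z', path_trans hp hp', ?_⟩
        rw [A_add d (i := i) (j := i + r ^ k) (l := i') (by omega) (by omega)]
        have h6 := hbc k
        push_cast at hz hz' h6 ⊢
        linarith
    obtain ⟨z, hp, hz⟩ := key
    have := hKr i i' h2 ((k : ℝ) + 2) (by positivity) (by linarith)
    exact ⟨z, hp, by linarith⟩

end Vale.Agent.P076N.NUM
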