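import Vale.Agent.P076N.NUM.N3

/-!
# P076N, block NUM : `N2`
-/

set_option linter.all false

open Finset

namespace Vale.Agent.P076N.NUM

variable {m : ℕ} {gr : Prop} {O : Orc} {π : Par} {d : Dat}

theorem n2_core (h : Ax m True O π d) {k W c w' : ℕ} {u v : ℝ} (hk : 1 ≤ k) (hact : d.Act m π k 0 W)
    (hWc : W ≤ c) (hc : c ≤ π.K) (ho0 : 0 ≤ π.o) (hou : π.o ≤ u) (hoK : π.o * π.K ≤ u)
    (huv : 20 * ((k : ℝ) + 2) * u ≤ v) (hvW : 4 * ((k : ℝ) + 2) * v ≤ W)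
    (hg : Grd d (k + 2) 0 c (2 * u)) (hA : ((k : ℝ) + 2) * d.A 0 c ≤ c + (2 * k + 11) * u)
    (hany : ∀ i j z, j ≤ W → Path d.El i j z → ((k : ℝ) + 2) * d.A i j - (2 * k + 16) * u ≤ z)
    (hw' : w' ≤ W) (h1 : (w' : ℝ) - v ≤ d.A 0 w') (h2 : d.A w' W ≤ v) :
    (W : ℝ) ≤ 4 * (k + 2) * w' ∧ (∃ z, Path d.El w' c z ∧ d.Φ 0 w' + 2 * d.A 0 w' + z ≤ c + 4 * (k + 2) * v) ∧
      ∀ y ≤ w', (k : ℝ) * y - 4 * (k + 2) * v ≤ d.G 0 y := by
  have hk0 : (1 : ℝ) ≤ k := by exact_mod_cast hk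
  have hu0 : 0 ≤ u := ho0.trans hou
  have hku : u ≤ k * u := le_mul_of_one_le_left hu0 hk0
  have hv0 : 0 ≤ v := by linarith
  have hkv : v ≤ k * v := le_mul_of_one_le_left hv0 hk0
  have hsl : ∀ i j, i ≤ j → j ≤ W → d.A i j ≤ (j : ℝ) - i + v := fun i j hij hj => by
    have := slope_le h hact hk ho0 (by positivity) hany hij hj
    linarith
  refine ⟨?_, ?_, fun y hy => ?_⟩
  · have h3 := low_A h hg hWc (Or.inl ⟨trivial, hWc.trans hc⟩)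
    have h4 := hsl 0 w' (Nat.zero_le _) hw'
    have h5 : d.A 0 W ≤ w' + 2 * v := by
      rw [A_add d (Nat.zero_le _) hw']
      push_cast at h4
      linarith
    have h6 := mul_le_mul_of_nonneg_left h5 (by linarith : (0 : ℝ) ≤ k + 2)
    have h7 : (0 : ℝ) ≤ (k + 2) * w' := by positivity
    linarith
  · obtain ⟨z, hp, hz⟩ := hg w' c (Nat.zero_le _) (hw'.trans hWc) le_rfl
    refine ⟨z, hp, ?_⟩
    obtain ⟨h3, h4⟩ := phi_up h hact ho0 (Nat.zero_le w') hw'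
    have h5 := mul_le_mul_of_nonneg_left h1 (by linarith : (0 : ℝ) ≤ k)
    rw [A_add d (Nat.zero_le _) (hw'.trans hWc)] at hA
    push_cast at h4
    linarith
  · have h3 := hsl y w' hy hw'
    have h4 := A_add d (Nat.zero_le y) hy
    have h5 : (y : ℝ) - 2 * v ≤ d.A 0 y := by linarith
    have h6 := mul_le_mul_of_nonneg_left h5 (by linarith : (0 : ℝ) ≤ k)
    have h7 := phi_low h (hWc.trans hc) ho0 hany (Nat.zero_le y) (hy.trans hw')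
    have h8 := (phi_up h hact ho0 (Nat.zero_le y) (hy.trans hw')).1
    linarith

theorem n2 : RowN2 := by
  intro hGR hNC hBLK hCA m hm O η' hη'
  obtain ⟨k, rfl⟩ : ∃ k, m = k + 1 := ⟨m - 1, by omega⟩
  have hk0 : (2 : ℝ) ≤ k := by exact_mod_cast (by omega : 2 ≤ k)
  obtain ⟨η, hη0, hη1, hη2⟩ : ∃ η : ℝ, 0 < η ∧ η ≤ η' ∧ η ≤ 1 / 2 :=
    ⟨min η' (1 / 2), lt_min hη' (by norm_num), min_le_left _ _, min_le_right _ _⟩
  obtain ⟨γa, εa, δa, hγa, hεa, hδa, hC⟩ := hCA (k + 1) O η hm hη0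
  obtain ⟨θ, hθ0, hθ1, hθ2⟩ : ∃ θ : ℝ, 0 < θ ∧ θ ≤ δa ∧ θ ≤ 1 / 2 :=
    ⟨min δa (1 / 2), lt_min hδa (by norm_num), min_le_left _ _, min_le_right _ _⟩
  refine ⟨θ / (8 * ((k : ℝ) + 2)), by positivity, fun ε hε => ?_⟩
  obtain ⟨eb, heb0, heb⟩ : ∃ eb : ℝ, 0 < eb ∧ 4 * ((k : ℝ) + 2) * eb = min 1 ε :=
    ⟨min 1 ε / (4 * ((k : ℝ) + 2)), by have := lt_min one_pos hε; positivity, by field_simp⟩
  have heb1 : 4 * ((k : ℝ) + 2) * eb ≤ 1 := heb ▸ min_le_left _ _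
  have heb2 : 4 * ((k : ℝ) + 2) * eb ≤ ε := heb ▸ min_le_right _ _
  obtain ⟨γb, εb, δb, hγb, hεb, hδb, hB⟩ := hBLK (k + 1) k O eb (by omega) (by omega) heb0
  obtain ⟨ν, hν0, hν1, hν2⟩ : ∃ ν : ℝ, 0 < ν ∧ ν ≤ δb ∧ ν ≤ eb :=
    ⟨min δb eb, lt_min hδb heb0, min_le_left _ _, min_le_right _ _⟩
  obtain ⟨ζ, hζ0, hζ⟩ : ∃ ζ : ℝ, 0 < ζ ∧ 20 * ((k : ℝ) + 2) * ζ = ν * θ / 2 :=
    ⟨ν * θ / 2 / (20 * ((k : ℝ) + 2)), by positivity, by field_simp⟩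
  have hkeb : 0 ≤ (k : ℝ) * eb := by positivity
  have hkζ : 0 ≤ (k : ℝ) * ζ := by positivity
  have hνθ : ν * θ ≤ θ := mul_le_of_le_one_left hθ0.le (by linarith)
  have hνθ' : ν * θ ≤ ν := mul_le_of_le_one_right hν0.le (by linarith)
  obtain ⟨ε₁, w, B, hε₁, hw, hG⟩ := hGR (k + 1) O ζ hζ0
  obtain ⟨K, hK1, hK⟩ := exists_K (1 + B + (2 * ((k + 1 : ℕ) : ℝ) + 4) * ((O.Ml ζ + 2) * B)) ζ hζ0
  obtain ⟨π, rfl, hF, hπo, hπE⟩ : ∃ π : Par, π.K = K ∧ Full (k + 1) π ∧ π.o = min ε₁ ζ ∧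
      π.E = {γa, εa, γb, εb, ε₁, ζ} :=
    ⟨⟨K, trAll (k + 1) _, min ε₁ ζ, {γa, εa, γb, εb, ε₁, ζ}⟩, rfl, full_of rfl, rfl, rfl⟩
  have hK1r : (1 : ℝ) ≤ π.K := by exact_mod_cast hK1
  have hK0 : (0 : ℝ) ≤ π.K := by linarith
  have hB0 : (0 : ℝ) ≤ B := Nat.cast_nonneg _
  have hMB : (0 : ℝ) ≤ (2 * ((k + 1 : ℕ) : ℝ) + 4) * ((O.Ml ζ + 2) * B) := by positivity
  have ho : 0 < π.o := hπo ▸ lt_min hε₁ hζ0
  obtain ⟨u, hu⟩ : ∃ u : ℝ, u = ζ * π.K := ⟨_, rfl⟩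
  rw [← hu] at hK
  have hu0 : 0 ≤ u := by linarith
  have hku : 2 * u ≤ k * u := mul_le_mul_of_nonneg_right hk0 hu0
  have hT : 20 * ((k : ℝ) + 2) * u = ν * (θ * π.K / 2) := by
    rw [hu, ← mul_assoc, hζ]; ring
  have hT1 : 20 * ((k : ℝ) + 2) * u ≤ θ * π.K / 2 := by
    rw [hT]; exact mul_le_of_le_one_left (by positivity) (by linarith)
  have hθK : θ * π.K ≤ δa * π.K := mul_le_mul_of_nonneg_right hθ1 hK0
  have hθK2 : θ * π.K ≤ 1 / 2 * π.K := mul_le_mul_of_nonneg_right hθ2 hK0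
  have hTε : 20 * ((k : ℝ) + 2) * u ≤ ε * π.K := by
    rw [hu, ← mul_assoc]
    exact mul_le_mul_of_nonneg_right (by linarith) hK0
  refine ⟨ζ, hζ0, π, ⟨hK1, ho, ?_⟩, by linarith, fun d h => ?_⟩
  · intro e he
    simp only [hπE, mem_insert, mem_singleton] at he
    rcases he with rfl | rfl | rfl | rfl | rfl | rfl <;> assumption
  have hoζ : π.o ≤ ζ := hπo ▸ min_le_right _ _
  have hoK : π.o * π.K ≤ u := hu ▸ mul_le_mul_of_nonneg_right hoζ hK0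
  have hou : π.o ≤ u := le_trans (le_mul_of_one_le_right ho.le hK1r) hoK
  have hGR' := hG True π d h hF (by simp [hπE]) ho.le (hπo ▸ min_le_left _ _)
  rw [← hu] at hGR'
  obtain ⟨hw1, hw2⟩ := hw k (by omega)
  have hw3 : (w k : ℝ) ≤ B := by exact_mod_cast hw2
  obtain ⟨c, hc, hg0, hJ, h1, h2⟩ := hNC (k + 1) O π d w _ ζ (by omega) h hF hGR' hw1 (by simp [hπE])
    hζ0.le ho.le
  simp only [Nat.add_sub_cancel] at hJ h2
  have h3 : (2 * ((k + 1 : ℕ) : ℝ) + 4) * ((O.Ml ζ + 2) * w k) ≤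
      (2 * ((k + 1 : ℕ) : ℝ) + 4) * ((O.Ml ζ + 2) * B) := by gcongr
  have e1 : ((k + 1 : ℕ) : ℝ) + 1 = k + 2 := by push_cast; ring
  rw [e1] at hg0 h1 h2 ⊢
  have hg : Grd d (k + 2) 0 c (2 * u) := grd_mono hg0 (by linarith)
  have h1' : (c : ℝ) - 3 * u ≤ (k + 2) * d.A 0 c := by linarith
  have h2' : 2 * (π.K : ℝ) - c - 7 * u ≤ (k + 2) * d.A 0 c + 2 * (k + 2) * d.A c π.K := by
    have : 2 * ζ * π.K = 2 * u := by rw [hu]; ring
    linarith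
  have hBu : 1 + (B : ℝ) ≤ u := by linarith
  clear h1 h2 h3 hg0 hK hMB
  have hAc := A_add d (Nat.zero_le c) hc
  have hdiv : ∀ x y : ℝ, ((k : ℝ) + 2) * (x / (k + 2) + y) = x + (k + 2) * y := fun x y => by field_simp
  refine ⟨?_, fun hA => ?_⟩
  · refine le_of_mul_le_mul_left ?_ (by linarith : (0 : ℝ) < k + 2)
    rw [sub_eq_add_neg, hdiv, hAc]
    have : 2 * (ε * π.K) ≤ k * (ε * π.K) := mul_le_mul_of_nonneg_right hk0 (by positivity)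
    linarith
  have hA' := mul_le_mul_of_nonneg_left hA (by linarith : (0 : ℝ) ≤ k + 2)
  rw [hdiv, ← hu] at hA'
  have hoδ : π.o ≤ δa := by linarith
  have hA1 : ((k : ℝ) + 2) * d.A 0 c ≤ c + (2 * k + 11) * u := by rw [hAc] at hA'; linarith
  have hA2 : ((k : ℝ) + 2) * d.A c π.K ≤ π.K - c + (k + 5) * u := by rw [hAc] at hA'; linarith
  have hcη : (1 - η) * π.K < c := by
    by_contra hc'
    push Not at hc'
    have h4 : 0 < η * π.K := by positivity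
    have h5 : c ≠ π.K := by rintro rfl; linarith
    obtain ⟨z, hp, hz⟩ := hg 0 c le_rfl (Nat.zero_le _) le_rfl
    exact hC π d c (w k) z h (by simp [hπE]) (by simp [hπE]) ho.le hoδ (hJ.resolve_left h5) (by linarith) hc' hp
      (by linarith) (by rw [e1]; linarith)
  obtain ⟨W, hW1, hW2⟩ : ∃ W : ℕ, (W : ℝ) ≤ θ * π.K ∧ θ * π.K < W + 1 :=
    ⟨⌊θ * π.K⌋₊, Nat.floor_le (by positivity), Nat.lt_floor_add_one _⟩
  have hW3 : θ * π.K / 2 ≤ W := by linarith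
  have hηK : η * π.K ≤ 1 / 2 * π.K := mul_le_mul_of_nonneg_right hη2 hK0
  have hWc : W ≤ c := by exact_mod_cast (by linarith : (W : ℝ) ≤ c)
  have hW0 : 1 ≤ W := by exact_mod_cast (by linarith : (1 : ℝ) ≤ W)
  have hWK : W < π.K := by exact_mod_cast (by linarith : (W : ℝ) < π.K)
  have hT0 := hF k 0 W (by omega) hW0 (by omega)
  have hnar : d.nar k 0 W := by
    by_contra hn
    refine hC π d 0 W 0 h (by simp [hπE]) (by simp [hπE]) ho.le hoδ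
      ⟨act_top d _ π, by simp, hT0, hn, le_rfl, by simpa using hWK, hW0⟩ (by linarith) ?_ (Path.nil 0) ?_ ?_
    · push_cast; linarith
    · push_cast; linarith
    · rw [e1]; push_cast; linarith
  have hact : d.Act (k + 1) π k 0 W := Or.inr ⟨hT0, by omega, hW0, by omega, hnar⟩
  have hany : ∀ i j z, j ≤ W → Path d.El i j z → ((k : ℝ) + 2) * d.A i j - (2 * k + 16) * u ≤ z := by
    intro i j z hj hp
    have := any_path h (Or.inl ⟨trivial, hc⟩) hg hA1 (hj.trans hWc) hp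
    linarith
  have hνW : 20 * ((k : ℝ) + 2) * u ≤ ν * W := hT ▸ mul_le_mul_of_nonneg_left hW3 hν0.le
  have hW00 : (0 : ℝ) ≤ W := Nat.cast_nonneg _
  have hδW : ν * W ≤ δb * W := mul_le_mul_of_nonneg_right hν1 hW00
  have heW : ν * W ≤ eb * W := mul_le_mul_of_nonneg_right hν2 hW00
  obtain ⟨hv1, hv2⟩ := hw (k - 1) (by omega)
  have hv3 : (w (k - 1) : ℝ) ≤ B := by exact_mod_cast hv2
  obtain ⟨w', hw', h4, h5⟩ := hB True π d W (w (k - 1)) h hF (by simp [hπE]) (by simp [hπE]) ho.le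
    (by linarith) hv1 (by linarith) hact
    (fun i j z hj hp => by have := hany i j z hj hp; linarith)
    (fun i i' hi hi' hn => by
      obtain ⟨z, hp, hz⟩ := hGR'.2 (k - 1) (by omega) i i' hi (by omega) hn
      have := hany i i' z hi' hp
      rw [Nat.cast_sub (by omega)] at hz
      push_cast at hz
      linarith)
    (fun ρ hρ => by
      have := low_A h hg (by omega : ρ ≤ c) (Or.inr (Or.inl (by omega)))
      linarith)
  have hvW : 4 * ((k : ℝ) + 2) * (eb * W) ≤ W := by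
    rw [← mul_assoc]; exact mul_le_of_le_one_left hW00 heb1
  have hvε : 4 * ((k : ℝ) + 2) * (eb * W) ≤ ε * π.K := by
    rw [← mul_assoc]
    exact mul_le_mul heb2 (by exact_mod_cast hWK.le) hW00 hε.le
  obtain ⟨h6, ⟨z, hp, hz⟩, h7⟩ := n2_core h (by omega) hact hWc hc ho.le hou hoK (by linarith) hvW hg hA1 hany
    hw' h4 h5
  refine ⟨w', c, z, ?_, hw'.trans hWc, hc, ?_, hp, by linarith, fun y hy => ?_⟩
  · rw [div_mul_eq_mul_div, div_le_iff₀ (by positivity)]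
    linarith
  · have := mul_le_mul_of_nonneg_right hη1 hK0
    linarith
  · have := h7 y hy
    push_cast
    linarith

end Vale.Agent.P076N.NUM
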