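import Vale.Agent.P076N.NUM.Real

/-!
# P076N, block NUM : rows RA1, RA2
-/

set_option linter.all false

open Filter Topology MeasureTheory

namespace Vale.Agent.P076N.NUM

noncomputable section

theorem ra_lip {L : ℝ} {F : ℝ → ℝ} (h : ∀ s t, |F s - F t| ≤ L * |s - t|) : LipschitzWith L.toNNReal F := by
  refine LipschitzWith.of_dist_le_mul fun s t => ?_
  rw [Real.dist_eq, Real.dist_eq]
  exact (h s t).trans (mul_le_mul_of_nonneg_right (Real.le_coe_toNNReal L) (abs_nonneg _))

/-- lower bounds of the derivative integrate for Lipschitz functions -/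
theorem ra_ftc {L : ℝ} {F : ℝ → ℝ} (h : ∀ s t, |F s - F t| ≤ L * |s - t|) {a b c : ℝ} (hab : a ≤ b)
    (hc : ∀ t s, a < t → t < b → HasDerivAt F s t → c ≤ s) : c * (b - a) ≤ F b - F a := by
  have hl := ra_lip h
  have hac : AbsolutelyContinuousOnInterval F a b := hl.lipschitzOnWith.absolutelyContinuousOnInterval
  rw [← hac.integral_deriv_eq_sub]
  have h1 : ∫ _ in a..b, c = c * (b - a) := by simp [mul_comm]
  rw [← h1]
  refine intervalIntegral.integral_mono_ae_restrict hab intervalIntegrable_const hac.intervalIntegrable_deriv ?_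
  rw [← Measure.restrict_congr_set Ioo_ae_eq_Icc]
  have h2 := ae_restrict_of_ae (s := Set.Ioo a b) hl.ae_differentiableAt_real
  filter_upwards [h2, ae_restrict_mem measurableSet_Ioo] with t ht hm
  exact hc t _ hm.1 hm.2 ht.hasDerivAt

theorem ra_ftc' {L : ℝ} {F : ℝ → ℝ} (h : ∀ s t, |F s - F t| ≤ L * |s - t|) {a b c : ℝ} (hab : a ≤ b)
    (hc : ∀ t s, a < t → t < b → HasDerivAt F s t → s ≤ c) : F b - F a ≤ c * (b - a) := by
  have := ra_ftc (L := L) (F := fun t => -F t) (c := -c) (fun s t => by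
    rw [show -F s - -F t = -(F s - F t) by ring, abs_neg]; exact h s t) hab (fun t s h1 h2 h3 => by
    have h4 := h3.neg
    simp only [Pi.neg_def, neg_neg] at h4
    linarith [hc t _ h1 h2 h4])
  linarith

theorem ra_der {F : ℝ → ℝ} {s t η : ℝ} (h : HasDerivAt F s t) (hη : 0 < η) :
    ∃ δ, 0 < δ ∧ ∀ p, t < p → p < t + δ → F p - F t ≤ (s + η) * (p - t) := by
  have h1 := (hasDerivAt_iff_isLittleO.1 h).def hη
  obtain ⟨δ, hδ, h2⟩ := Metric.eventually_nhds_iff.1 h1
  refine ⟨δ, hδ, fun p h3 h4 => ?_⟩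
  have h5 := h2 (y := p) (by rw [Real.dist_eq, abs_lt]; constructor <;> linarith)
  simp only [Real.norm_eq_abs, smul_eq_mul] at h5
  rw [abs_of_pos (by linarith : 0 < p - t)] at h5
  have := (abs_le.1 h5).2
  linarith

theorem ra1 : RA1 := by
  intro L r c γ F hL hγc hγr hr h0 hup h1 hdi hst
  have hL0 : 0 ≤ L := by have := hL 1 0; simp at this; exact (abs_nonneg _).trans this
  obtain ⟨x₂, s₂, x0, x1, hd₂, hs₂⟩ : ∃ x s, 0 < x ∧ x < 1 ∧ HasDerivAt F s x ∧ 1 - γ ≤ s := by
    by_contra hc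
    push Not at hc
    have := ra_ftc' hL zero_le_one (c := γ) fun t s a b d => (hdi t s a b d).resolve_right (hc t s a b d).not_ge
    linarith
  have key : ∀ t s, 0 < t → t < x₂ → HasDerivAt F s t → 1 - γ ≤ s := by
    intro t s t0 t1 hd
    refine (hdi t s t0 (by linarith) hd).resolve_left fun hs => ?_
    set S : Set ℝ := {p | t < p ∧ p ≤ x₂ ∧ ∃ s', HasDerivAt F s' p ∧ 1 - γ ≤ s'} with hS
    have hne : S.Nonempty := ⟨x₂, t1, le_rfl, s₂, hd₂, hs₂⟩
    have hbd : BddBelow S := ⟨t, fun p hp => hp.1.le⟩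
    have ht : t ≤ sInf S := le_csInf hne fun p hp => hp.1.le
    have hnear : ∀ δ, 0 < δ → ∃ p ∈ S, sInf S ≤ p ∧ p < sInf S + δ := fun δ hδ => by
      obtain ⟨p, hp, h2⟩ := exists_lt_of_csInf_lt hne (by linarith : sInf S < sInf S + δ)
      exact ⟨p, hp, csInf_le hbd hp, h2⟩
    have hP : ∀ p ∈ S, ∀ u, p / 2 < u → u < p → c * (p - u) ≤ F p - F u := by
      rintro p ⟨p1, p2, s', p3, p4⟩
      exact hst p s' (by linarith) (by linarith) p3 p4
    rcases ht.eq_or_lt with he | hlt
    · obtain ⟨δ, hδ, h2⟩ := ra_der hd (η := (c - s) / 2) (by linarith)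
      obtain ⟨p, hp, -, p2⟩ := hnear (min δ t) (lt_min hδ t0)
      rw [← he] at p2
      have p3 := min_le_left δ t
      have p4 := min_le_right δ t
      have a1 := hP p hp t (by linarith) hp.1
      have a2 := h2 p hp.1 (by linarith)
      nlinarith [hp.1]
    · set x := sInf S with hx
      have hx2 : x ≤ x₂ := csInf_le hbd ⟨t1, le_rfl, s₂, hd₂, hs₂⟩
      set u := max t (3 * x / 4) with hu
      have u1 : t ≤ u := le_max_left _ _
      have u2 : 3 * x / 4 ≤ u := le_max_right _ _
      have u3 : u < x := max_lt hlt (by linarith)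
      have a1 : F x - F u ≤ γ * (x - u) := by
        refine ra_ftc' hL u3.le fun p s' p1 p2 p3 => ?_
        refine (hdi p s' (by linarith) (by linarith) p3).resolve_right fun p4 => ?_
        have : x ≤ p := csInf_le hbd ⟨by linarith, by linarith, s', p3, p4⟩
        linarith
      have hq : 0 < L + |c| + 1 := by positivity
      obtain ⟨p, hp, p1, p2⟩ := hnear (min (x / 4) ((c - γ) * (x - u) / (L + |c| + 1)))
        (lt_min (by linarith) (div_pos (mul_pos (by linarith) (by linarith)) hq))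
      have p3 := min_le_left (x / 4) ((c - γ) * (x - u) / (L + |c| + 1))
      have p4 := min_le_right (x / 4) ((c - γ) * (x - u) / (L + |c| + 1))
      have a2 := hP p hp u (by linarith) (by linarith)
      have a3 := (abs_le.1 (hL p x)).2
      rw [abs_of_nonneg (by linarith : 0 ≤ p - x)] at a3
      have a4 : (p - x) * (L + |c| + 1) < (c - γ) * (x - u) := by
        rw [← lt_div_iff₀ hq]; linarith
      have a5 : -|c| * (p - x) ≤ c * (p - x) := mul_le_mul_of_nonneg_right (neg_abs_le c) (by linarith)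
      nlinarith
  have a1 := ra_ftc hL x0.le key
  have a2 := hup x₂ x0.le x1.le
  nlinarith

theorem ra2 : RA2 := by
  intro L γ F hL hγ h0 hdi hdb
  have hc : Continuous F := (ra_lip hL).continuous
  set S : Set ℝ := Set.Icc 0 1 ∩ {t | F 1 - γ ≤ F t} with hS
  have hcl : IsClosed S := isClosed_Icc.inter (isClosed_le continuous_const hc)
  have hne : S.Nonempty := ⟨1, ⟨zero_le_one, le_rfl⟩, by simp [hγ.le]⟩
  have hbd : BddBelow S := ⟨0, fun p hp => hp.1.1⟩
  have hm := hcl.csInf_mem hne hbd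
  set ρ := sInf S with hρ
  have hm2 : F 1 - γ ≤ F ρ := hm.2
  refine ⟨ρ, hm.1.1, hm.1.2, ?_, by linarith⟩
  have := ra_ftc hL hm.1.1 (c := 1 - γ) fun t s t0 t1 hd => by
    have t2 : t < 1 := lt_of_lt_of_le t1 hm.1.2
    have t3 : F t < F 1 - γ := by
      by_contra hh
      push Not at hh
      have : ρ ≤ t := csInf_le hbd ⟨⟨t0.le, t2.le⟩, hh⟩
      linarith
    refine (hdi t s t0 t2 (by linarith) hd).resolve_left fun hs => ?_
    have hit : ∀ i : ℕ, F 1 - F t ≤ 2 ^ i * (F (t + (1 - t) / 2 ^ i) - F t) := by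
      intro i
      induction i with
      | zero => simp
      | succ i ih =>
        have hp : (0 : ℝ) < 2 ^ i := by positivity
        have hp1 : (1 : ℝ) ≤ 2 ^ i := one_le_pow₀ (by norm_num)
        have e : 2 * ((1 - t) / 2 ^ (i + 1)) = (1 - t) / 2 ^ i := by rw [pow_succ]; field_simp
        have h2 := hdb t ((1 - t) / 2 ^ (i + 1)) t0 (by linarith) (by positivity [t2.le]) (by
          rw [e]
          have : (1 - t) / 2 ^ i ≤ 1 - t := div_le_self (by linarith) hp1
          linarith)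
        rw [e] at h2
        refine ih.trans ((mul_le_mul_of_nonneg_left h2 hp.le).trans (le_of_eq ?_))
        rw [← mul_assoc, ← pow_succ]
    obtain ⟨δ, hδ, h2⟩ := ra_der hd (η := F 1 - F t - γ) (by linarith)
    obtain ⟨i, hi⟩ := pow_unbounded_of_one_lt ((1 - t) / δ) (by norm_num : (1 : ℝ) < 2)
    have hp : (0 : ℝ) < 2 ^ i := by positivity
    have h3 : (1 - t) / 2 ^ i < δ := by
      rw [div_lt_iff₀ hp]; rw [div_lt_iff₀ hδ] at hi; linarith
    have h4 : 0 < (1 - t) / 2 ^ i := div_pos (by linarith) hp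
    have h5 := h2 (t + (1 - t) / 2 ^ i) (by linarith) (by linarith)
    have h6 := hit i
    have h7 : 2 ^ i * (F (t + (1 - t) / 2 ^ i) - F t) ≤ (s + (F 1 - F t - γ)) * (1 - t) := by
      refine (mul_le_mul_of_nonneg_left h5 hp.le).trans (le_of_eq ?_)
      field_simp; ring
    nlinarith
  linarith

end

end Vale.Agent.P076N.NUM
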