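import Vale.Agent.P076N.NUM.Real

/-!
# P076N, block NUM, row RB : the discrete form of `RA2`
-/

set_option linter.all false

open Filter Topology

namespace Vale.Agent.P076N.NUM

noncomputable section

namespace Rb

/-- the hypotheses of `RB` -/
structure Dat (L q γ er : ℝ) (M : ℕ) (δ : ℝ) (W : ℕ) (f : ℕ → ℝ) (br : ℕ → Prop) : Prop where
  big : 1 ≤ δ * W
  zero : f 0 = 0
  step : ∀ i < W, f i ≤ f (i + 1) ∧ f (i + 1) ≤ f i + L
  low : ∀ ρ : ℕ, 2 * ρ ≤ W → (ρ : ℝ) - δ * W ≤ q * f ρ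
  run : ∀ i i' : ℕ, i ≤ i' → i' ≤ W → (∀ l, i ≤ l → l < i' → ¬ br l) → f i' - f i ≤ δ * W
  dbl : ∀ j x : ℕ, br j → δ * W ≤ x → j + 2 * x ≤ W →
    f (j + 2 * x) - f j ≤ 2 * (f (j + x) - f j) + δ * W
  dic : ∀ (j y : ℕ) (s : ℝ), br j → δ * W ≤ y → j + M * y ≤ W → γ ≤ s → s ≤ 1 - γ →
    (∀ x x' : ℕ, x ≤ x' → x' ≤ M * y →
      |f (j + x') - f (j + x) - s * ((x' : ℝ) - x)| ≤ er * y) → False

variable {L q γ er δ ε : ℝ} {M W : ℕ} {f : ℕ → ℝ} {br : ℕ → Prop} {F : ℝ → ℝ}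

theorem Dat.weak (h : Dat L q γ er M δ W f br) (e : δ ≤ ε) : Dat L q γ er M ε W f br := by
  have k : δ * W ≤ ε * W := mul_le_mul_of_nonneg_right e W.cast_nonneg
  exact ⟨h.big.trans k, h.zero, h.step, fun ρ a => by linarith [h.low ρ a],
    fun i i' a b c => (h.run i i' a b c).trans k,
    fun j x a b c => by linarith [h.dbl j x a (k.trans b) c],
    fun j y s a b => h.dic j y s a (k.trans b)⟩

theorem Dat.pos (h : Dat L q γ er M δ W f br) : (0 : ℝ) < W := by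
  rcases Nat.eq_zero_or_pos W with rfl | a
  · have := h.big
    norm_num at this
  · exact_mod_cast a

theorem Dat.mono (h : Dat L q γ er M δ W f br) {i j : ℕ} (a : i ≤ j) (b : j ≤ W) : f i ≤ f j := by
  induction j, a using Nat.le_induction with
  | base => exact le_rfl
  | succ k _ ih => exact (ih (by omega)).trans (h.step k b).1

/-- approximation by the limit -/
def Ap (F : ℝ → ℝ) (ε : ℝ) (W : ℕ) (f : ℕ → ℝ) : Prop :=
  ∀ i ≤ W, |f i - W * F ((i : ℝ) / W)| ≤ ε * W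

theorem Ap.near (h : Ap F ε W f) (hF : ∀ s t, |F s - F t| ≤ L * |s - t|) (L0 : 0 ≤ L)
    (W0 : (0 : ℝ) < W) {i : ℕ} (a : i ≤ W) {t κ : ℝ} (b : |i - t * W| ≤ κ * W) :
    |f i - W * F t| ≤ (ε + L * κ) * W := by
  have h1 : |(i : ℝ) / W - t| * W ≤ κ * W := by
    rwa [← abs_of_pos W0, ← abs_mul, abs_of_pos W0, sub_mul, div_mul_cancel₀ _ W0.ne']
  have h2 : |W * F ((i : ℝ) / W) - W * F t| ≤ L * κ * W := by
    rw [← mul_sub, abs_mul, abs_of_pos W0, mul_comm, mul_assoc]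
    exact (mul_le_mul_of_nonneg_right (hF _ _) W0.le).trans
      (by rw [mul_assoc]; exact mul_le_mul_of_nonneg_left h1 L0)
  have h3 := abs_sub_le (f i) (W * F ((i : ℝ) / W)) (W * F t)
  linarith [h i a]

theorem sm (C : ℝ) {c : ℝ} (hc : 0 < c) : ∀ᶠ ε in 𝓝[>] (0 : ℝ), ε * C < c := by
  have : Tendsto (fun ε : ℝ => ε * C) (𝓝 0) (𝓝 (0 * C)) := (continuous_mul_right C).tendsto 0
  rw [zero_mul] at this
  exact (this.eventually_lt_const hc).filter_mono nhdsWithin_le_nhds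

theorem flo {t : ℝ} (t0 : 0 ≤ t) (W : ℕ) :
    (⌊t * W⌋₊ : ℝ) ≤ t * W ∧ t * W - 1 ≤ ⌊t * W⌋₊ :=
  ⟨Nat.floor_le (by positivity), by linarith [Nat.lt_floor_add_one (t * W)]⟩

/-- repeated doubling -/
theorem Dat.iter (h : Dat L q γ er M δ W f br) (L0 : 0 ≤ L) {j x₀ : ℕ} (hj : br j)
    (h1 : 2 * (δ * W) ≤ x₀) (h2 : j + x₀ ≤ W) (h3 : f (j + x₀) - f j ≤ (1 + L) * (δ * W)) (k : ℕ) :
    ∀ x, j + x ≤ W → x ≤ 2 ^ k * x₀ →
      f (j + x) - f j + (1 + L) * (δ * W) ≤ 2 ^ k * (2 * ((1 + L) * (δ * W))) := by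
  have c0 : 0 ≤ (1 + L) * (δ * W) := mul_nonneg (by linarith) (by linarith [h.big])
  have cL : L ≤ L * (δ * W) := le_mul_of_one_le_right L0 h.big
  have base : ∀ x ≤ x₀, ∀ k : ℕ, f (j + x) - f j + (1 + L) * (δ * W) ≤
      2 ^ k * (2 * ((1 + L) * (δ * W))) := fun x hx k => by
    have a := h.mono (Nat.add_le_add_left hx j) h2
    have b := le_mul_of_one_le_left (mul_nonneg two_pos.le c0) (one_le_pow₀ (n := k) one_le_two)
    linarith
  induction k with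
  | zero => exact fun x _ hx => base x (by simpa using hx) 0
  | succ k ih =>
    intro x hx hk
    rcases le_or_gt x x₀ with a | a
    · exact base x a _
    have b1 : x₀ ≤ 2 * (x / 2) := by omega
    have b2 : (x₀ : ℝ) ≤ 2 * (x / 2 : ℕ) := by exact_mod_cast b1
    have b3 := h.dbl j (x / 2) hj (by linarith) (by omega)
    have b4 := ih (x / 2) (by omega) (by rw [pow_succ, mul_right_comm] at hk; omega)
    have b5 : f (j + x) ≤ f (j + 2 * (x / 2)) + L := by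
      rcases Nat.even_or_odd' x with ⟨z, rfl | rfl⟩
      · rw [show 2 * (2 * z / 2) = 2 * z by omega]; linarith
      · rw [show 2 * ((2 * z + 1) / 2) = 2 * z by omega]
        exact (h.step (j + 2 * z) (by omega)).2
    rw [pow_succ]
    linarith

/-- broad levels just before a point below the top -/
theorem broad (hF : ∀ s t, |F s - F t| ≤ L * |s - t|) (L0 : 0 ≤ L) (q0 : 0 < q) {t τ : ℝ}
    (t0 : 0 < t) (t1 : t ≤ 1) (ht : F t < F 1) (τ0 : 0 < τ) : ∀ᶠ ε in 𝓝[>] (0 : ℝ), ∀ W f br,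
      Dat L q γ er M ε W f br → Ap F ε W f → ∃ j, br j ∧ (t - τ) * W ≤ j ∧ j ≤ t * W := by
  obtain ⟨k, hk⟩ := pow_unbounded_of_one_lt (2 / τ) (one_lt_two (α := ℝ))
  rw [div_lt_iff₀ τ0] at hk
  have m0 : 0 < min t (1 / 2) := lt_min t0 one_half_pos
  filter_upwards [sm (2 + q) m0, sm 4 τ0,
    sm (2 ^ k * (2 * (1 + L)) + 2 + L) (sub_pos.2 ht)] with ε e1 e2 e3 W f br h ap
  classical
  have W0 := h.pos
  have big := h.big
  obtain ⟨i1, i2⟩ := flo t0.le W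
  have iW : ⌊t * W⌋₊ ≤ W := by
    have : (⌊t * W⌋₊ : ℝ) ≤ W := i1.trans (mul_le_of_le_one_left W0.le t1)
    exact_mod_cast this
  have ex : ∃ l, l < ⌊t * W⌋₊ ∧ br l := by
    by_contra a
    push Not at a
    have b1 := h.run 0 _ (Nat.zero_le _) iW fun l _ hl => a l hl
    obtain ⟨r1, r2⟩ := flo m0.le W
    have b2 : 2 * ⌊min t (1 / 2) * W⌋₊ ≤ W := by
      have : 2 * (⌊min t (1 / 2) * W⌋₊ : ℝ) ≤ W := by
        nlinarith [mul_le_mul_of_nonneg_right (min_le_right t (1 / 2)) W0.le]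
      exact_mod_cast this
    have b3 := h.low _ b2
    have b4 := h.mono (Nat.floor_le_floor
      (mul_le_mul_of_nonneg_right (min_le_left t (1 / 2)) W0.le)) iW
    rw [h.zero, sub_zero] at b1
    have b5 := mul_le_mul_of_nonneg_left (b4.trans b1) q0.le
    nlinarith [mul_lt_mul_of_pos_right e1 W0]
  obtain ⟨j, ⟨j1, j2⟩, jm⟩ := ((Set.finite_lt_nat ⌊t * W⌋₊).subset
    (t := {l | l < ⌊t * W⌋₊ ∧ br l}) fun l hl => hl.1).exists_maximal ex
  have jr : (j : ℝ) + 1 ≤ ⌊t * W⌋₊ := by exact_mod_cast j1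
  refine ⟨j, j2, ?_, by linarith⟩
  by_contra a
  push Not at a
  obtain ⟨x₀, hx⟩ := Nat.exists_eq_add_of_le j1.le
  have hx' : (⌊t * W⌋₊ : ℝ) = j + x₀ := by exact_mod_cast hx
  have e2' := mul_lt_mul_of_pos_right e2 W0
  have b1 := h.run (j + 1) _ j1 iW fun l a b c => by
    have := jm ⟨b, c⟩ (by omega : j ≤ l)
    omega
  have b2 := (h.step j (j1.trans_le iW)).2
  have b3 : L ≤ L * (ε * W) := le_mul_of_one_le_right L0 big
  obtain ⟨z, hz⟩ := Nat.exists_eq_add_of_le (j1.le.trans iW)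
  have b4 : z ≤ 2 ^ k * x₀ := by
    have c1 : (z : ℝ) ≤ W := by exact_mod_cast (by omega : z ≤ W)
    have c2 : τ * W / 2 ≤ x₀ := by linarith
    have c3 : (z : ℝ) ≤ 2 ^ k * x₀ := by
      nlinarith [mul_le_mul_of_nonneg_left c2 (pow_pos (two_pos (α := ℝ)) k).le,
        mul_lt_mul_of_pos_right hk W0]
    exact_mod_cast c3
  have b5 := h.iter L0 j2 (x₀ := x₀) (by linarith) (hx ▸ iW) (by rw [← hx]; linarith) k z hz.ge b4
  rw [← hz] at b5
  have b6 := h.mono j1.le iW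
  have b7 := abs_le.1 (ap.near hF L0 W0 iW (t := t) (κ := ε) (abs_le.2 ⟨by linarith, by linarith⟩))
  have b8 := abs_le.1 (ap W le_rfl)
  rw [div_self W0.ne'] at b8
  have b9 := mul_lt_mul_of_pos_right e3 W0
  have c0 : 0 ≤ (1 + L) * (ε * W) := mul_nonneg (by linarith) (by linarith)
  linarith

theorem dblF (hF : ∀ s t, |F s - F t| ≤ L * |s - t|) (L0 : 0 ≤ L) (q0 : 0 < q)
    (H : ∀ ε > 0, ∃ W f br, Dat L q γ er M ε W f br ∧ Ap F ε W f) (t x : ℝ) (t0 : 0 < t)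
    (ht : F t < F 1) (x0 : 0 ≤ x) (h1 : t + 2 * x ≤ 1) :
    F (t + 2 * x) - F t ≤ 2 * (F (t + x) - F t) := by
  rcases x0.eq_or_lt with rfl | x0
  · simp
  by_contra a
  obtain ⟨g, hg⟩ : ∃ g, g = F (t + 2 * x) + F t - 2 * F (t + x) := ⟨_, rfl⟩
  have g0 : 0 < g / 2 := by linarith [not_le.1 a]
  obtain ⟨τ, τ1, τ0⟩ := ((sm (4 * L) g0).and self_mem_nhdsWithin).exists
  obtain ⟨ε, ⟨⟨e1, e2⟩, e3⟩, e0⟩ := ((((broad (γ := γ) (er := er) (M := M) hF L0 q0 t0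
    (by linarith) ht τ0).and (sm 2 x0)).and (sm (5 + 4 * L) g0)).and self_mem_nhdsWithin).exists
  obtain ⟨W, f, br, h, ap⟩ := H ε e0
  obtain ⟨j, j0, j1, j2⟩ := e1 W f br h ap
  have W0 := h.pos
  have big := h.big
  obtain ⟨i1, i2⟩ := flo x0.le W
  have e2' := mul_lt_mul_of_pos_right e2 W0
  have τW : 0 ≤ τ * W := mul_nonneg (le_of_lt τ0) W0.le
  have b0 : j + 2 * ⌊x * W⌋₊ ≤ W := by
    have : (j : ℝ) + 2 * ⌊x * W⌋₊ ≤ W := by
      nlinarith [mul_le_mul_of_nonneg_right h1 W0.le]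
    exact_mod_cast this
  have b1 := h.dbl j _ j0 (by linarith) b0
  have b2 := abs_le.1 (ap.near hF L0 W0 (by omega : j ≤ W) (t := t) (κ := τ)
    (abs_le.2 ⟨by linarith, by linarith⟩))
  have b3 := abs_le.1 (ap.near hF L0 W0 (by omega : j + ⌊x * W⌋₊ ≤ W) (t := t + x) (κ := τ + ε)
    (abs_le.2 ⟨by push_cast; linarith, by push_cast; linarith⟩))
  have b4 := abs_le.1 (ap.near hF L0 W0 b0 (t := t + 2 * x) (κ := τ + 2 * ε)
    (abs_le.2 ⟨by push_cast; linarith, by push_cast; linarith⟩))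
  have b5 := mul_lt_mul_of_pos_right τ1 W0
  have b6 := mul_lt_mul_of_pos_right e3 W0
  rw [hg] at b5 b6
  linarith

theorem dicF (hF : ∀ s t, |F s - F t| ≤ L * |s - t|) (L0 : 0 ≤ L) (q0 : 0 < q) (r0 : 0 < er)
    (H : ∀ ε > 0, ∃ W f br, Dat L q γ er M ε W f br ∧ Ap F ε W f) (t s : ℝ) (t0 : 0 < t)
    (t1 : t < 1) (ht : F t < F 1) (hd : HasDerivAt F s t) : s ≤ γ ∨ 1 - γ ≤ s := by
  by_contra a
  push Not at a
  have M0 : (0 : ℝ) < M + 1 := by positivity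
  have η0 : 0 < er / (8 * (M + 1)) := by positivity
  obtain ⟨r, r1, hr⟩ := Metric.eventually_nhds_iff.1 (hd.isLittleO.def η0)
  obtain ⟨lam, ⟨l1, l2⟩, l0⟩ := (((sm (M + 1) r1).and (sm M (sub_pos.2 t1))).and
    self_mem_nhdsWithin).exists
  replace l0 : 0 < lam := l0
  obtain ⟨ε, ⟨⟨e1, e2⟩, e3⟩, e0⟩ := ((((broad (γ := γ) (er := er) (M := M) hF L0 q0 t0 t1.le ht
    l0).and (sm 2 l0)).and (sm 8 (mul_pos r0 l0))).and self_mem_nhdsWithin).exists
  obtain ⟨W, f, br, h, ap⟩ := H ε e0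
  obtain ⟨j, j0, j1, j2⟩ := e1 W f br h ap
  have W0 := h.pos
  have big := h.big
  obtain ⟨i1, i2⟩ := flo l0.le W
  have e2' := mul_lt_mul_of_pos_right e2 W0
  have My : ((M * ⌊lam * W⌋₊ : ℕ) : ℝ) ≤ M * (lam * W) := by push_cast; gcongr
  have b0 : j + M * ⌊lam * W⌋₊ ≤ W := by
    have : (j : ℝ) + (M * ⌊lam * W⌋₊ : ℕ) ≤ W := by
      nlinarith [mul_lt_mul_of_pos_right l2 W0]
    exact_mod_cast this
  have key : ∀ x ≤ M * ⌊lam * W⌋₊,
      |f (j + x) - (W * F t + s * (j + x - t * W))| ≤ er * lam / 4 * W := fun x hx => by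
    have x1 : (x : ℝ) ≤ M * (lam * W) := le_trans (by exact_mod_cast hx) My
    have x0 : (0 : ℝ) ≤ x := x.cast_nonneg
    have lW : 0 ≤ M * (lam * W) := by positivity
    have lW' : 0 ≤ lam * W := by positivity
    have u1 : |((j + x : ℕ) : ℝ) / W - t| ≤ lam * (M + 1) := by
      rw [div_sub' W0.ne', abs_div, abs_of_pos W0, div_le_iff₀ W0, abs_le]
      push_cast
      constructor <;> linarith
    have u2 := hr (y := ((j + x : ℕ) : ℝ) / W) (by rw [Real.dist_eq]; linarith)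
    rw [Real.norm_eq_abs, Real.norm_eq_abs, smul_eq_mul] at u2
    have u3 : er / (8 * (M + 1)) * (lam * (M + 1)) = er * lam / 8 := by field_simp
    have u4 := mul_le_mul_of_nonneg_right (u2.trans
      ((mul_le_mul_of_nonneg_left u1 η0.le).trans u3.le)) W0.le
    rw [← abs_of_pos W0, ← abs_mul, abs_of_pos W0] at u4
    have u5 : (F (((j + x : ℕ) : ℝ) / W) - F t - (((j + x : ℕ) : ℝ) / W - t) * s) * W =
        W * F (((j + x : ℕ) : ℝ) / W) - (W * F t + s * (j + x - t * W)) := by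
      push_cast
      field_simp
      ring
    rw [u5] at u4
    have u6 := abs_sub_le (f (j + x)) (W * F (((j + x : ℕ) : ℝ) / W))
      (W * F t + s * (j + x - t * W))
    have u7 := ap (j + x) (by omega)
    linarith [mul_lt_mul_of_pos_right e3 W0]
  refine h.dic j _ s j0 (by linarith) b0 a.1.le a.2.le fun x x' k1 k2 => ?_
  have k3 := abs_le.1 (key x (k1.trans k2))
  have k4 := abs_le.1 (key x' k2)
  have k5 : er * (lam * W / 2) ≤ er * ⌊lam * W⌋₊ := mul_le_mul_of_nonneg_left (by linarith) r0.le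
  rw [abs_le]
  constructor <;> linarith

end Rb

open Rb

theorem rb : RowRB := by
  intro lim ra2 L q γ er M q0 γ0 r0
  by_contra hcon
  have h1 : ∀ n : ℕ, ∃ W f br, Dat L q γ er M (1 / (n + 2)) W f br ∧
      ¬ ∃ w' ≤ W, (w' : ℝ) - 2 * γ * W ≤ f w' ∧ f W - f w' ≤ 2 * γ * W := fun n => by
    by_contra a
    push Not at a
    exact hcon ⟨1 / (n + 2), by positivity, fun W f br a1 a2 a3 a4 a5 a6 a7 =>
      a W f br ⟨a1, a2, a3, a4, a5, a6, a7⟩⟩
  choose W f br hD hN using h1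
  have hW : ∀ n, n < W n := fun n => by
    have a := (hD n).big
    rw [one_div, ← div_eq_inv_mul, le_div_iff₀ (by positivity)] at a
    have : (n : ℝ) < W n := by linarith
    exact_mod_cast this
  have L0 : 0 ≤ L := by linarith [((hD 0).step 0 (hW 0)).1, ((hD 0).step 0 (hW 0)).2]
  obtain ⟨F, F0, hF, hA⟩ := lim L W f hW (fun n => (hD n).zero) fun n i hi =>
    abs_le.2 ⟨by linarith [((hD n).step i hi).1], by linarith [((hD n).step i hi).2]⟩
  have H : ∀ ε > 0, ∃ n, Dat L q γ er M ε (W n) (f n) (br n) ∧ Ap F ε (W n) (f n) := fun ε e0 => by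
    obtain ⟨N, hN⟩ := exists_nat_one_div_lt e0
    obtain ⟨n, n1, n2⟩ := hA ε e0 N
    refine ⟨n, (hD n).weak (le_trans ?_ hN.le), n2⟩
    have : (N : ℝ) ≤ n := by exact_mod_cast n1
    gcongr
    linarith
  have H' : ∀ ε > 0, ∃ W f br, Dat L q γ er M ε W f br ∧ Ap F ε W f := fun ε e0 =>
    (H ε e0).elim fun n h => ⟨_, _, _, h⟩
  obtain ⟨ρ, ρ0, ρ1, a1, a2⟩ := ra2 L γ F hF γ0 F0 (dicF hF L0 q0 r0 H') (dblF hF L0 q0 H')
  obtain ⟨ε, e1, e0⟩ := ((sm (2 + L) γ0).and self_mem_nhdsWithin).exists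
  obtain ⟨n, h, ap⟩ := H ε e0
  have W0 := h.pos
  have big := h.big
  obtain ⟨i1, i2⟩ := flo ρ0 (W n)
  have ρW : ρ * W n ≤ W n := mul_le_of_le_one_left W0.le ρ1
  have iW : ⌊ρ * W n⌋₊ ≤ W n := by exact_mod_cast i1.trans ρW
  have b1 := abs_le.1 (ap.near hF L0 W0 iW (t := ρ) (κ := ε) (abs_le.2 ⟨by linarith, by linarith⟩))
  have b2 := abs_le.1 (ap _ le_rfl)
  rw [div_self W0.ne'] at b2
  have b3 := mul_lt_mul_of_pos_right e1 W0
  have b4 := mul_le_mul_of_nonneg_right a1 W0.le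
  have b5 := mul_le_mul_of_nonneg_right a2 W0.le
  have b6 := mul_le_mul_of_nonneg_left ρW γ0.le
  exact hN n ⟨_, iW, by linarith, by linarith⟩

end

end Vale.Agent.P076N.NUM
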