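import Vale.Agent.P076N.NUM.Real

/-!
# P076N, block NUM : the discrete form of `RA1` (row RC)
-/

set_option linter.all false

open Filter Topology Set Metric

namespace Vale.Agent.P076N.NUM

noncomputable section

namespace Rc

theorem fl (a ε W : ℝ) (ha : 0 ≤ a) (hW : 0 ≤ W) (h1 : 1 ≤ ε * W) :
    (⌊a * W⌋₊ : ℝ) ≤ a * W ∧ a * W - ε * W ≤ ⌊a * W⌋₊ := by
  refine ⟨Nat.floor_le (mul_nonneg ha hW), ?_⟩
  have := Nat.lt_floor_add_one (a * W)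
  linarith

/-- near a point of differentiability the sequences are almost linear -/
theorem near (F : ℝ → ℝ) (s t er : ℝ) (M : ℕ) (hd : HasDerivAt F s t) (ht0 : 0 < t) (ht1 : t < 1)
    (her : 0 < er) : ∃ l₀ : ℝ, 0 < l₀ ∧ ∀ l ε : ℝ, 0 < l → l ≤ l₀ → 0 < ε → ε ≤ l / 2 →
      ε ≤ er * l / 8 → ∀ (W : ℕ) (f : ℕ → ℝ), 1 ≤ ε * W →
      (∀ i ≤ W, |f i - W * F ((i : ℝ) / W)| ≤ ε * W) →
      ε * W ≤ (⌊l * W⌋₊ : ℝ) ∧ M * ⌊l * W⌋₊ ≤ ⌊t * W⌋₊ ∧ ⌊t * W⌋₊ + M * ⌊l * W⌋₊ ≤ W ∧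
      ∀ x x' : ℕ, ⌊t * W⌋₊ ≤ x → x ≤ x' → x' ≤ ⌊t * W⌋₊ + M * ⌊l * W⌋₊ →
        |f x' - f x - s * ((x' : ℝ) - x)| ≤ er * (⌊l * W⌋₊ : ℝ) := by
  have hM : (0 : ℝ) < M + 1 := by positivity
  have hη : 0 < er / (8 * (M + 1)) := by positivity
  have h1 := (hasDerivAt_iff_isLittleO.1 hd).def hη
  obtain ⟨ρ, hρ, h2⟩ := Metric.eventually_nhds_iff.1 h1
  refine ⟨min (min t (1 - t)) (ρ / 2) / (M + 1), by
    have : 0 < 1 - t := by linarith
    positivity, ?_⟩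
  intro l ε hl hl0 hε he1 he2 W f hW ha
  rw [le_div_iff₀ hM] at hl0
  have hlt : l * (M + 1) ≤ t := hl0.trans ((min_le_left _ _).trans (min_le_left _ _))
  have hlt' : l * (M + 1) ≤ 1 - t := hl0.trans ((min_le_left _ _).trans (min_le_right _ _))
  have hlρ : l * (M + 1) ≤ ρ / 2 := hl0.trans (min_le_right _ _)
  have hW0 : (0 : ℝ) < W := by
    rcases Nat.eq_zero_or_pos W with h | h
    · rw [h] at hW; norm_num at hW
    · exact_mod_cast h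
  obtain ⟨y1, y2⟩ := fl l ε W hl.le hW0.le hW
  obtain ⟨x1, x2⟩ := fl t ε W ht0.le hW0.le hW
  set y := ⌊l * W⌋₊
  set x₀ := ⌊t * W⌋₊
  have hM0 : (0 : ℝ) ≤ M := Nat.cast_nonneg M
  have hMy : (M : ℝ) * y ≤ M * (l * W) := mul_le_mul_of_nonneg_left y1 hM0
  have e1 : ε * W ≤ l / 2 * W := mul_le_mul_of_nonneg_right he1 hW0.le
  have e2 : ε * W ≤ er * l / 8 * W := mul_le_mul_of_nonneg_right he2 hW0.le
  have e3 : l * (M + 1) * W ≤ t * W := mul_le_mul_of_nonneg_right hlt hW0.le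
  have e4 : l * (M + 1) * W ≤ (1 - t) * W := mul_le_mul_of_nonneg_right hlt' hW0.le
  have e5 : 0 < l * W := mul_pos hl hW0
  have hy2 : l * W / 2 ≤ y := by linarith
  have hxW : x₀ + M * y ≤ W := by
    have : (x₀ : ℝ) + M * y ≤ W := by nlinarith
    exact_mod_cast this
  refine ⟨by linarith, ?_, hxW, ?_⟩
  · have : (M : ℝ) * y ≤ x₀ := by nlinarith
    exact_mod_cast this
  · have key : ∀ x : ℕ, x₀ ≤ x → x ≤ x₀ + M * y →
        |f x - W * F t - s * (x - t * W)| ≤ ε * W + er * l / 8 * W := by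
      intro x hx1 hx2
      have hx1' : (x₀ : ℝ) ≤ x := by exact_mod_cast hx1
      have hx2' : (x : ℝ) ≤ x₀ + M * y := by exact_mod_cast hx2
      have hu : |(x : ℝ) / W - t| ≤ l * (M + 1) := by
        have : (x : ℝ) / W - t = (x - t * W) / W := by field_simp
        rw [this, abs_div, abs_of_pos hW0, div_le_iff₀ hW0, abs_le]
        constructor <;> nlinarith
      have h3 := h2 (y := (x : ℝ) / W) (by rw [Real.dist_eq]; linarith)
      simp only [Real.norm_eq_abs, smul_eq_mul] at h3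
      have h4 : |F ((x : ℝ) / W) - F t - ((x : ℝ) / W - t) * s| ≤ er * l / 8 := by
        refine h3.trans ((mul_le_mul_of_nonneg_left hu hη.le).trans (le_of_eq ?_))
        field_simp
      have h5 : f x - W * F t - s * (x - t * W) = (f x - W * F ((x : ℝ) / W)) +
          (F ((x : ℝ) / W) - F t - ((x : ℝ) / W - t) * s) * W := by
        field_simp; ring
      rw [h5]
      refine (abs_add_le _ _).trans (add_le_add (ha x (hx2.trans hxW)) ?_)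
      rw [abs_mul, abs_of_pos hW0]
      exact mul_le_mul_of_nonneg_right h4 hW0.le
    intro x x' hx hxx hx'
    have k1 := abs_le.1 (key x hx (hxx.trans hx'))
    have k2 := abs_le.1 (key x' (hx.trans hxx) hx')
    have k3 : er * (l * W / 2) ≤ er * y := mul_le_mul_of_nonneg_left hy2 her.le
    rw [abs_le]
    constructor <;> linarith [k1.1, k1.2, k2.1, k2.2]

/-- the value at a grid point near `t` -/
theorem val (L ε l t : ℝ) (F : ℝ → ℝ) (hL : 0 ≤ L) (hF : ∀ s t, |F s - F t| ≤ L * |s - t|) (W : ℕ)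
    (hW0 : (0 : ℝ) < W) (f : ℕ → ℝ) (ha : ∀ i ≤ W, |f i - W * F ((i : ℝ) / W)| ≤ ε * W) (x : ℕ)
    (hx : x ≤ W) (hl : |(x : ℝ) - t * W| ≤ l * W) : |f x - W * F t| ≤ ε * W + L * l * W := by
  have hu : |(x : ℝ) / W - t| ≤ l := by
    have : (x : ℝ) / W - t = (x - t * W) / W := by field_simp
    rw [this, abs_div, abs_of_pos hW0, div_le_iff₀ hW0]
    exact hl
  have h5 : f x - W * F t = (f x - W * F ((x : ℝ) / W)) + (F ((x : ℝ) / W) - F t) * W := by ring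
  rw [h5]
  refine (abs_add_le _ _).trans (add_le_add (ha x hx) ?_)
  rw [abs_mul, abs_of_pos hW0]
  exact mul_le_mul_of_nonneg_right ((hF _ _).trans (mul_le_mul_of_nonneg_left hu hL)) hW0.le

theorem small (a b C : ℝ) (hC : 0 ≤ C) (h : ∀ ε : ℝ, 0 < ε → a ≤ b + C * ε) : a ≤ b := by
  refine le_of_forall_pos_le_add fun κ hκ => (h (κ / (C + 1)) (by positivity)).trans ?_
  have : C * (κ / (C + 1)) ≤ κ := by
    rw [← mul_div_assoc, div_le_iff₀ (by positivity)]; nlinarith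
  linarith

end Rc

/-- **[RC]** -/
theorem rc : RowRC := by
  intro hLIM hRA L r c γ er M hγ hc hr1 hr2 her
  by_contra hcon
  have hex : ∀ n : ℕ, ∃ (W : ℕ) (f : ℕ → ℝ), 1 ≤ 1 / ((n : ℝ) + 1) * W ∧ f 0 = 0 ∧
      (∀ i < W, |f (i + 1) - f i| ≤ L) ∧ (∀ x ≤ W, f x ≤ r * x + 1 / ((n : ℝ) + 1) * W) ∧
      r * W - 1 / ((n : ℝ) + 1) * W ≤ f W ∧
      (∀ (x₀ y : ℕ) (s : ℝ), 1 / ((n : ℝ) + 1) * W ≤ y → M * y ≤ x₀ → x₀ + M * y ≤ W → γ ≤ s →
        s ≤ 1 - γ → (∀ x x' : ℕ, x₀ ≤ x → x ≤ x' → x' ≤ x₀ + M * y →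
          |f x' - f x - s * ((x' : ℝ) - x)| ≤ er * y) → False) ∧
      (∀ (x₀ x₁ x₂ : ℕ) (g : ℝ), 1 / ((n : ℝ) + 1) * W ≤ x₀ → x₀ ≤ x₁ → x₁ < x₂ → x₂ ≤ 2 * x₀ →
        x₂ ≤ W → 0 ≤ g → (1 - g) * ((x₂ : ℝ) - x₁) ≤ f x₂ - f x₁ →
        c * ((x₁ : ℝ) - x₀) ≤ f x₂ - f x₀ + g * ((x₁ : ℝ) - x₀) + 1 / ((n : ℝ) + 1) * W) := by
    intro n
    by_contra hn
    refine hcon ⟨1 / ((n : ℝ) + 1), Nat.one_div_pos_of_nat, fun W f a1 a2 a3 a4 a5 a6 a7 => ?_⟩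
    exact hn ⟨W, f, a1, a2, a3, a4, a5, a6, a7⟩
  choose W f b1 b2 b3 b4 b5 b6 b7 using hex
  have hWn : ∀ n, n < W n := fun n => by
    have h := b1 n
    rw [one_div, inv_mul_eq_div, le_div_iff₀ (by positivity), one_mul] at h
    exact_mod_cast h
  have hL : 0 ≤ L := (abs_nonneg _).trans (b3 0 0 (hWn 0))
  obtain ⟨F, hF0, hF, hap⟩ := hLIM L W f hWn b2 b3
  have hA : ∀ ε : ℝ, 0 < ε → ∃ (W : ℕ) (f : ℕ → ℝ), (0 : ℝ) < W ∧ 1 ≤ ε * W ∧
      (∀ i ≤ W, |f i - W * F ((i : ℝ) / W)| ≤ ε * W) ∧ (∀ x ≤ W, f x ≤ r * x + ε * W) ∧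
      r * W - ε * W ≤ f W ∧
      (∀ (x₀ y : ℕ) (s : ℝ), ε * W ≤ y → M * y ≤ x₀ → x₀ + M * y ≤ W → γ ≤ s →
        s ≤ 1 - γ → (∀ x x' : ℕ, x₀ ≤ x → x ≤ x' → x' ≤ x₀ + M * y →
          |f x' - f x - s * ((x' : ℝ) - x)| ≤ er * y) → False) ∧
      (∀ (x₀ x₁ x₂ : ℕ) (g : ℝ), ε * W ≤ x₀ → x₀ ≤ x₁ → x₁ < x₂ → x₂ ≤ 2 * x₀ →
        x₂ ≤ W → 0 ≤ g → (1 - g) * ((x₂ : ℝ) - x₁) ≤ f x₂ - f x₁ →
        c * ((x₁ : ℝ) - x₀) ≤ f x₂ - f x₀ + g * ((x₁ : ℝ) - x₀) + ε * W) := by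
    intro ε hε
    obtain ⟨N, hN⟩ := exists_nat_one_div_lt hε
    obtain ⟨n, hn, ha⟩ := hap ε hε N
    have h1 : 1 / ((n : ℝ) + 1) ≤ ε := (Nat.one_div_le_one_div hn).trans hN.le
    have h2 : 1 / ((n : ℝ) + 1) * W n ≤ ε * W n :=
      mul_le_mul_of_nonneg_right h1 (Nat.cast_nonneg _)
    refine ⟨W n, f n, by exact_mod_cast lt_of_le_of_lt (Nat.zero_le n) (hWn n), (b1 n).trans h2, ha,
      fun x hx => by linarith [b4 n x hx], by linarith [b5 n],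
      fun x₀ y s c1 => b6 n x₀ y s (h2.trans c1), fun x₀ x₁ x₂ g c1 c2 c3 c4 c5 c6 c7 => ?_⟩
    linarith [b7 n x₀ x₁ x₂ g (h2.trans c1) c2 c3 c4 c5 c6 c7]
  refine hRA L r (c - 2 * γ) γ F hF (by linarith) hr1 hr2 hF0 ?_ ?_ ?_ ?_
  · intro t ht0 ht1
    refine Rc.small _ _ (2 + L) (by linarith) fun ε hε => ?_
    obtain ⟨W, f, hW0, hW, ha, c1, -⟩ := hA ε hε
    obtain ⟨x1, x2⟩ := Rc.fl t ε W ht0 hW0.le hW
    have hx : ⌊t * W⌋₊ ≤ W := by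
      have : (⌊t * W⌋₊ : ℝ) ≤ W := x1.trans (mul_le_of_le_one_left hW0.le ht1)
      exact_mod_cast this
    have hεW : 0 ≤ ε * W := by linarith
    have v := abs_le.1 (Rc.val L ε ε t F hL hF W hW0 f ha _ hx
      (by rw [abs_le]; constructor <;> linarith))
    have c2 := c1 _ hx
    have c3 : r * (⌊t * W⌋₊ : ℝ) ≤ r * (t * W) := mul_le_mul_of_nonneg_left x1 (by linarith)
    refine le_of_mul_le_mul_right ?_ hW0
    nlinarith [v.1]
  · refine Rc.small _ _ 2 (by norm_num) fun ε hε => ?_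
    obtain ⟨W, f, hW0, hW, ha, -, c1, -⟩ := hA ε hε
    have v := abs_le.1 (ha W le_rfl)
    rw [div_self hW0.ne'] at v
    refine le_of_mul_le_mul_right ?_ hW0
    nlinarith [v.2]
  · intro t s ht0 ht1 hd
    by_contra hs
    push Not at hs
    obtain ⟨l, hl, hn⟩ := Rc.near F s t er M hd ht0 ht1 her
    have hε : 0 < min (l / 2) (er * l / 8) := by positivity
    obtain ⟨W, f, hW0, hW, ha, -, -, c1, -⟩ := hA _ hε
    obtain ⟨d1, d2, d3, d4⟩ := hn l _ hl le_rfl hε (min_le_left _ _) (min_le_right _ _) W f hW ha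
    exact c1 _ _ s d1 d2 d3 hs.1.le hs.2.le d4
  · intro t s ht0 ht1 hd hs u hu1 hu2
    obtain ⟨l₀, hl₀, hn⟩ := Rc.near F s t γ 1 hd ht0 ht1 hγ
    refine Rc.small _ _ (c + 2 * L + 3) (by linarith) fun κ hκ => ?_
    have hu0 : 0 < u := by linarith
    have h2u : 0 < 2 * u - t := by linarith
    obtain ⟨l, hl, l1, l2, l3, l4⟩ : ∃ l : ℝ, 0 < l ∧ l ≤ l₀ ∧ l ≤ κ ∧ l ≤ u ∧ l ≤ (2 * u - t) / 2 :=
      ⟨min (min l₀ κ) (min u ((2 * u - t) / 2)), by positivity,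
        (min_le_left _ _).trans (min_le_left _ _), (min_le_left _ _).trans (min_le_right _ _),
        (min_le_right _ _).trans (min_le_left _ _), (min_le_right _ _).trans (min_le_right _ _)⟩
    obtain ⟨ε, hε, e1, e2⟩ : ∃ ε : ℝ, 0 < ε ∧ ε ≤ l / 2 ∧ ε ≤ γ * l / 8 :=
      ⟨min (l / 2) (γ * l / 8), by positivity, min_le_left _ _, min_le_right _ _⟩
    obtain ⟨W, f, hW0, hW, ha, -, -, -, c1⟩ := hA ε hε
    obtain ⟨d1, -, d3, d4⟩ := hn l ε hl l1 hε e1 e2 W f hW ha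
    obtain ⟨x1, x2⟩ := Rc.fl t ε W ht0.le hW0.le hW
    obtain ⟨y1, y2⟩ := Rc.fl l ε W hl.le hW0.le hW
    obtain ⟨z1, z2⟩ := Rc.fl u ε W hu0.le hW0.le hW
    have hzx : ⌊u * W⌋₊ ≤ ⌊t * W⌋₊ :=
      Nat.floor_mono (mul_le_mul_of_nonneg_right hu2.le hW0.le)
    set x := ⌊t * W⌋₊
    set y := ⌊l * W⌋₊
    set z := ⌊u * W⌋₊
    rw [one_mul] at d3 d4
    have m1 : ε * W ≤ l / 2 * W := mul_le_mul_of_nonneg_right e1 hW0.le
    have m2 : l * W ≤ u * W := mul_le_mul_of_nonneg_right l3 hW0.le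
    have m3 : l * W ≤ (2 * u - t) / 2 * W := mul_le_mul_of_nonneg_right l4 hW0.le
    have m4 : l * W ≤ κ * W := mul_le_mul_of_nonneg_right l2 hW0.le
    have hy0 : (0 : ℝ) < y := by linarith
    have hy0' : 0 < y := by exact_mod_cast hy0
    have d5 := abs_le.1 (d4 x (x + y) le_rfl (Nat.le_add_right _ _) le_rfl)
    have hxy : x + y ≤ 2 * z := by
      have : (x : ℝ) + y ≤ 2 * z := by linarith
      exact_mod_cast this
    have c2 := c1 z x (x + y) (2 * γ) (by linarith) hzx (by omega) hxy d3 (by linarith) (by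
      have d6 := d5.1
      push_cast at d6 ⊢
      nlinarith)
    have v1 := abs_le.1 (Rc.val L ε l t F hL hF W hW0 f ha (x + y) d3
      (by push_cast; rw [abs_le]; constructor <;> linarith))
    have v2 := abs_le.1 (Rc.val L ε l u F hL hF W hW0 f ha z (by omega)
      (by rw [abs_le]; constructor <;> linarith))
    have m5 : L * (l * W) ≤ L * (κ * W) := mul_le_mul_of_nonneg_left m4 hL
    have m6 : (c - 2 * γ) * ((t - u) * W - κ * W) ≤ (c - 2 * γ) * ((x : ℝ) - z) :=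
      mul_le_mul_of_nonneg_left (by linarith) (by linarith)
    have m7 : 0 ≤ γ * (κ * W) := by positivity
    refine le_of_mul_le_mul_right ?_ hW0
    nlinarith [v1.2, v2.1]

end

end Vale.Agent.P076N.NUM
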