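import Vale.Agent.P076N.NUM.Lim
import Vale.Agent.P076N.NUM.Ra
import Vale.Agent.P076N.NUM.Rb
import Vale.Agent.P076N.NUM.Rc
import Vale.Agent.P076N.NUM.Gr
import Vale.Agent.P076N.NUM.N2
import Vale.Agent.P076N.NUM.Blk
import Vale.Agent.P076N.NUM.Ca

/-!
# P076N, block NUM : the three numeric theorems
-/

set_option linter.all false

namespace Vale.Agent.P076N.NUM

theorem num_all : (∀ m, 2 ≤ m → N1 m) ∧ (∀ m, 3 ≤ m → N2 m) ∧ ∀ m, 2 ≤ m → N3 m :=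
  num_of lim ra1 ra2 rb rc gr nc blk ca n1 n2 n3

theorem num1 : ∀ m, 2 ≤ m → N1 m := num_all.1

theorem num2 : ∀ m, 3 ≤ m → N2 m := num_all.2.1

theorem num3 : ∀ m, 2 ≤ m → N3 m := num_all.2.2

end Vale.Agent.P076N.NUM
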