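import Vale.Agent.P076N.NUM.Real

/-!
# P076N, block NUM : a cluster point of rescaled Lipschitz sequences (row LIM)
-/

set_option linter.all false

open Filter Topology Set Metric

namespace Vale.Agent.P076N.NUM

noncomputable section

namespace Lim

theorem disc (L : ℝ) (W : ℕ) (f : ℕ → ℝ) (h : ∀ i, i < W → |f (i + 1) - f i| ≤ L) (a d : ℕ)
    (hd : a + d ≤ W) : |f (a + d) - f a| ≤ L * d := by
  induction d with
  | zero => simp
  | succ d ih =>
    have h1 := ih (by omega)
    have h2 := h (a + d) (by omega)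
    have h3 : f (a + (d + 1)) - f a = (f (a + d + 1) - f (a + d)) + (f (a + d) - f a) := by
      rw [← add_assoc]; ring
    rw [h3]
    refine (abs_add_le _ _).trans ?_
    push_cast
    linarith

theorem disc' (L : ℝ) (W : ℕ) (f : ℕ → ℝ) (h : ∀ i, i < W → |f (i + 1) - f i| ≤ L) (a b : ℕ)
    (ha : a ≤ W) (hb : b ≤ W) : |f a - f b| ≤ L * |(a : ℝ) - b| := by
  rcases le_total a b with hab | hab
  · obtain ⟨d, rfl⟩ := Nat.exists_eq_add_of_le hab
    have := disc L W f h a d hb
    rw [abs_sub_comm, abs_sub_comm (a : ℝ)]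
    simpa using this
  · obtain ⟨d, rfl⟩ := Nat.exists_eq_add_of_le hab
    have := disc L W f h b d ha
    simpa using this

/-- a Lipschitz interpolation of the rescaled sequence -/
theorem interp (L : ℝ) (hL : 0 ≤ L) (W : ℕ) (hW : 0 < W) (f : ℕ → ℝ)
    (h : ∀ i, i < W → |f (i + 1) - f i| ≤ L) :
    ∃ g : ℝ → ℝ, (∀ s t, |g s - g t| ≤ L * |s - t|) ∧ ∀ i ≤ W, g ((i : ℝ) / W) = f i / W := by
  have hW' : (0 : ℝ) < W := by exact_mod_cast hW
  have key : ∀ i : ℕ, ⌊(i : ℝ) / W * W⌋₊ = i := by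
    intro i
    rw [div_mul_cancel₀ _ hW'.ne', Nat.floor_natCast]
  have hl : LipschitzOnWith ⟨L, hL⟩ (fun t : ℝ => f ⌊t * W⌋₊ / W)
      {t | ∃ i ≤ W, t = (i : ℝ) / W} := by
    refine LipschitzOnWith.of_dist_le_mul ?_
    rintro _ ⟨i, hi, rfl⟩ _ ⟨j, hj, rfl⟩
    simp only [key, Real.dist_eq, ← sub_div, abs_div, abs_of_pos hW']
    change _ ≤ L * _
    rw [← mul_div_assoc]
    exact div_le_div_of_nonneg_right (disc' L W f h i j hi hj) hW'.le
  obtain ⟨g, hg, he⟩ := hl.extend_real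
  refine ⟨g, fun s t => ?_, fun i hi => ?_⟩
  · exact hg.dist_le_mul s t
  · have := he ⟨i, hi, rfl⟩
    simp only [key] at this
    exact this.symm

end Lim

/-- **[LIM]** -/
theorem lim : LIM := by
  intro L W f hW h0 hf
  have hWp : ∀ n, 0 < W n := fun n => lt_of_le_of_lt (Nat.zero_le n) (hW n)
  have hL : 0 ≤ L := (abs_nonneg _).trans (hf 0 0 (hW 0))
  choose g hg hv using fun n => Lim.interp L hL (W n) (hWp n) (f n) (hf n)
  have hg0 : ∀ n, g n 0 = 0 := fun n => by simpa [h0] using hv n 0 (Nat.zero_le _)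
  let U : Ultrafilter ℕ := hyperfilter ℕ
  have hU : (U : Filter ℕ) ≤ atTop := by
    rw [← Nat.cofinite_eq_atTop]; exact hyperfilter_le_cofinite
  have hex : ∀ t : ℝ, ∃ y : ℝ, Tendsto (fun n => g n t) U (𝓝 y) := by
    intro t
    have hm : ∀ n, g n t ∈ Icc (-(L * |t|)) (L * |t|) := fun n => by
      have := hg n t 0
      rw [hg0, sub_zero, sub_zero] at this
      exact abs_le.1 this
    obtain ⟨y, -, hy⟩ := isCompact_Icc.ultrafilter_le_nhds (U.map fun n => g n t)
      (by
        rw [Ultrafilter.coe_map, le_principal_iff, Filter.mem_map]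
        exact Eventually.of_forall hm)
    exact ⟨y, hy⟩
  choose F hF using hex
  have hFl : ∀ s t, |F s - F t| ≤ L * |s - t| := fun s t =>
    le_of_tendsto (((hF s).sub (hF t)).abs) (Eventually.of_forall fun n => hg n s t)
  refine ⟨F, ?_, hFl, ?_⟩
  · have : Tendsto (fun n => g n 0) U (𝓝 0) := by
      simp only [hg0]; exact tendsto_const_nhds
    exact tendsto_nhds_unique (hF 0) this
  · intro ε hε N
    have he : 0 < ε / (3 * (L + 1)) := by positivity
    obtain ⟨T, -, hT, hc⟩ := finite_cover_balls_of_compact (isCompact_Icc (a := (0 : ℝ)) (b := 1)) he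
    have h1 : ∀ᶠ n in (U : Filter ℕ), ∀ t ∈ T, dist (g n t) (F t) < ε / 3 :=
      (eventually_all_finite hT).2 fun t _ =>
        Metric.tendsto_nhds.1 (hF t) (ε / 3) (by positivity)
    obtain ⟨n, hn1, hn2⟩ := (h1.and (hU (eventually_ge_atTop N))).exists
    refine ⟨n, hn2, fun i hi => ?_⟩
    have hW' : (0 : ℝ) < W n := by exact_mod_cast hWp n
    have hi' : (i : ℝ) / W n ∈ Icc (0 : ℝ) 1 :=
      ⟨by positivity, (div_le_one hW').2 (by exact_mod_cast hi)⟩
    obtain ⟨t, ht, hb⟩ := mem_iUnion₂.1 (hc hi')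
    set u : ℝ := (i : ℝ) / W n with hu
    rw [mem_ball, Real.dist_eq] at hb
    have hLb : L * |u - t| ≤ ε / 3 := by
      calc L * |u - t| ≤ (L + 1) * (ε / (3 * (L + 1))) := by gcongr; linarith
        _ = ε / 3 := by field_simp
    have a1 := hg n u t
    have a2 := hn1 t ht
    have a3 := hFl u t
    rw [Real.dist_eq] at a2
    have a4 : |g n u - F u| ≤ ε := by
      rw [abs_le] at a1 a3 ⊢
      rw [abs_lt] at a2
      constructor <;> linarith [a1.1, a1.2, a2.1, a2.2, a3.1, a3.2]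
    have a5 : f n i - W n * F u = (g n u - F u) * W n := by
      rw [hu, hv n i hi]; field_simp
    rw [a5, abs_mul, abs_of_pos hW']
    exact mul_le_mul_of_nonneg_right a4 hW'.le

end

end Vale.Agent.P076N.NUM
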