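import Vale.Agent.P076N.NUM.Nc

/-!
# P076N, block NUM : `N3`
-/

set_option linter.all false

open Finset

namespace Vale.Agent.P076N.NUM

variable {m : ℕ} {gr : Prop} {O : Orc} {π : Par} {d : Dat}

/-- consequences of the lower bound for all paths in an active block of rank `k` -/
theorem phi_low (h : Ax m gr O π d) {k W : ℕ} {e : ℝ} (hW : W ≤ π.K) (ho : 0 ≤ π.o)
    (hany : ∀ i j z, j ≤ W → Path d.El i j z → ((k : ℝ) + 2) * d.A i j - e ≤ z)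
    {i j : ℕ} (hij : i ≤ j) (hj : j ≤ W) : (k : ℝ) * d.A i j - (e + π.o * π.K) ≤ d.Φ i j := by
  have h1 := hany i j _ hj (std_path h hij (by omega))
  have h2 : (j : ℝ) ≤ π.K := by exact_mod_cast hj.trans hW
  have h3 : π.o * ((j : ℝ) - i) ≤ π.o * π.K :=
    mul_le_mul_of_nonneg_left (by have := Nat.cast_nonneg (α := ℝ) i; linarith) ho
  linarith

theorem phi_up (h : Ax m gr O π d) {k W : ℕ} (ha : d.Act m π k 0 W) (ho : 0 ≤ π.o)
    {i j : ℕ} (hij : i ≤ j) (hj : j ≤ W) :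
    d.Φ i j ≤ d.G i j + π.o * π.K ∧ d.G i j ≤ k * ((j : ℝ) - i) + π.o * π.K := by
  have hK := (act_le ha).1
  have h1 := Φ_le_G h hij (by omega : j ≤ π.K)
  have h4 := G_le h ha (Nat.zero_le i) hij (by omega)
  have h2 : (j : ℝ) ≤ π.K := by exact_mod_cast (by omega : j ≤ π.K)
  have h3 : π.o * ((j : ℝ) - i) ≤ π.o * π.K :=
    mul_le_mul_of_nonneg_left (by have := Nat.cast_nonneg (α := ℝ) i; linarith) ho
  constructor <;> linarith

theorem slope_le (h : Ax m gr O π d) {k W : ℕ} {e : ℝ} (ha : d.Act m π k 0 W) (hk : 1 ≤ k) (ho : 0 ≤ π.o)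
    (he : 0 ≤ e) (hany : ∀ i j z, j ≤ W → Path d.El i j z → ((k : ℝ) + 2) * d.A i j - e ≤ z)
    {i j : ℕ} (hij : i ≤ j) (hj : j ≤ W) : d.A i j ≤ (j : ℝ) - i + (e + 3 * (π.o * π.K)) := by
  have hK := (act_le ha).1
  have h1 := phi_low h (by omega) ho hany hij hj
  obtain ⟨h2, h3⟩ := phi_up h ha ho hij hj
  have hk1 : (1 : ℝ) ≤ k := by exact_mod_cast hk
  have h4 : 0 ≤ π.o * π.K := mul_nonneg ho (Nat.cast_nonneg _)
  by_contra hc
  push Not at hc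
  have := mul_le_mul_of_nonneg_left hc.le (by linarith : (0 : ℝ) ≤ k)
  nlinarith

theorem n3_core (h : Ax m gr O π d) {a₀ w' : ℕ} {u v e : ℝ} (hm : 2 ≤ m) (hK : π.K = (m + 2) * a₀)
    (ho0 : 0 ≤ π.o) (hoK : π.o * π.K ≤ u) (huv : 20 * ((m : ℝ) + 2) * u ≤ v) (hve : 20 * ((m : ℝ) + 2) * v = e)
    (hg : Grd d (m + 2) 0 π.K (2 * u)) (hlow : (a₀ : ℝ) - u ≤ d.A 0 π.K)
    (hA : ((m : ℝ) + 2) * d.A 0 π.K ≤ π.K + (m + 2) * u)
    (hany : ∀ i j z, j ≤ π.K → Path d.El i j z → ((m : ℝ) + 2) * d.A i j - (m + 7) * u ≤ z)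
    (hw' : w' ≤ π.K) (h1 : (w' : ℝ) - v ≤ d.A 0 w') (h2 : d.A w' π.K ≤ v) :
    (π.K : ℝ) - e ≤ d.Φ 0 a₀ + 2 * d.A 0 a₀ ∧ (∀ y ≤ a₀, (m : ℝ) * y - e ≤ d.G 0 y) ∧
      ∃ z, Path d.El a₀ π.K z ∧ d.Φ 0 a₀ + 2 * d.A 0 a₀ + z ≤ π.K + e := by
  have hm0 : (2 : ℝ) ≤ m := by exact_mod_cast hm
  have hKr : (π.K : ℝ) = m * a₀ + 2 * a₀ := by rw [hK]; push_cast; ring
  have haK : a₀ ≤ π.K := hK ▸ Nat.le_mul_of_pos_left _ (by omega)
  have hu0 : 0 ≤ u := (mul_nonneg ho0 (Nat.cast_nonneg _)).trans hoK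
  have hmu : 2 * u ≤ m * u := mul_le_mul_of_nonneg_right hm0 hu0
  have hv0 : 0 ≤ v := by linarith
  have hmv : 2 * v ≤ m * v := mul_le_mul_of_nonneg_right hm0 hv0
  have hact := act_top d m π
  have hsl : ∀ i j, i ≤ j → j ≤ π.K → d.A i j ≤ (j : ℝ) - i + (m + 10) * u := fun i j hij hj => by
    have := slope_le h hact (by omega) ho0 (by positivity) hany hij hj
    linarith
  have hAw := A_add d (Nat.zero_le _) hw'
  have hwa : (a₀ : ℝ) - 3 * v ≤ w' := by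
    have h3 := hsl 0 w' (Nat.zero_le _) hw'
    push_cast at h3
    linarith
  have hAy : ∀ y ≤ a₀, (y : ℝ) - 4 * v ≤ d.A 0 y := by
    intro y hy
    have hyr : (y : ℝ) ≤ a₀ := by exact_mod_cast hy
    rcases le_total y w' with hc | hc
    · have h3 := hsl y w' hc hw'
      have h4 := A_add d (Nat.zero_le y) hc
      linarith
    · have h3 := A_mono h (le_refl 0) (Nat.zero_le w') hc (hy.trans haK)
      linarith
  have hΦ : ∀ y ≤ a₀, (m : ℝ) * y - 4 * (m * v) - (m + 8) * u ≤ d.Φ 0 y := by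
    intro y hy
    have h3 := phi_low h (le_refl π.K) ho0 hany (Nat.zero_le y) (hy.trans haK)
    have h4 := mul_le_mul_of_nonneg_left (hAy y hy) (by linarith : (0 : ℝ) ≤ m)
    linarith
  refine ⟨?_, fun y hy => ?_, ?_⟩
  · have h3 := hΦ a₀ le_rfl
    have h4 := hAy a₀ le_rfl
    linarith
  · have h3 := hΦ y hy
    have h4 := (phi_up h hact ho0 (Nat.zero_le y) (hy.trans haK)).1
    linarith
  · obtain ⟨z, hp, hz⟩ := hg a₀ π.K (Nat.zero_le _) haK le_rfl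
    refine ⟨z, hp, ?_⟩
    obtain ⟨h3, h4⟩ := phi_up h hact ho0 (Nat.zero_le a₀) haK
    have h5 := mul_le_mul_of_nonneg_left (hAy a₀ le_rfl) (by linarith : (0 : ℝ) ≤ m)
    rw [A_add d (Nat.zero_le _) haK] at hA
    push_cast at h4
    linarith

theorem grd_mono {q e e' : ℝ} {lo hi : ℕ} (h : Grd d q lo hi e) (he : e ≤ e') : Grd d q lo hi e' :=
  fun i i' h1 h2 h3 => by
    obtain ⟨z, hp, hz⟩ := h i i' h1 h2 h3
    exact ⟨z, hp, by linarith⟩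

theorem n3 : RowN3 := by
  intro hGR hBLK m hm O ε hε
  have hm0 : (2 : ℝ) ≤ m := by exact_mod_cast hm
  obtain ⟨eb, heb0, hebε⟩ : ∃ eb : ℝ, 0 < eb ∧ 20 * ((m : ℝ) + 2) * eb = ε :=
    ⟨ε / (20 * ((m : ℝ) + 2)), by positivity, by field_simp⟩
  obtain ⟨γ, εb, δ, hγ, hεb, hδ, hB⟩ := hBLK m m O eb (by omega) le_rfl heb0
  obtain ⟨ζ, hζ0, hζ1⟩ : ∃ ζ : ℝ, 0 < ζ ∧ 20 * ((m : ℝ) + 2) * ζ = min δ eb :=
    ⟨min δ eb / (20 * ((m : ℝ) + 2)), by have := lt_min hδ heb0; positivity, by field_simp⟩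
  have hζδ : 20 * ((m : ℝ) + 2) * ζ ≤ δ := hζ1 ▸ min_le_left _ _
  have hζe : 20 * ((m : ℝ) + 2) * ζ ≤ eb := hζ1 ▸ min_le_right _ _
  obtain ⟨ε₁, w, B, hε₁, hw, hG⟩ := hGR m O ζ hζ0
  obtain ⟨a₀, ha1, ha⟩ := exists_K (1 + B) ζ hζ0
  obtain ⟨π, hK, hF, hπo, hπE⟩ : ∃ π : Par, π.K = (m + 2) * a₀ ∧ Full m π ∧ π.o = min ε₁ ζ ∧
      π.E = {γ, εb, ε₁} := ⟨⟨(m + 2) * a₀, trAll m _, min ε₁ ζ, {γ, εb, ε₁}⟩, rfl, full_of rfl, rfl, rfl⟩
  have hKr : (π.K : ℝ) = (m + 2) * a₀ := by rw [hK]; push_cast; ring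
  have haK : a₀ ≤ π.K := hK ▸ Nat.le_mul_of_pos_left _ (by omega)
  have haKr : (a₀ : ℝ) ≤ π.K := by exact_mod_cast haK
  have hK1 : (1 : ℝ) ≤ π.K := by exact_mod_cast ha1.trans haK
  have hB0 : (0 : ℝ) ≤ B := Nat.cast_nonneg _
  have ho : 0 < π.o := hπo ▸ lt_min hε₁ hζ0
  obtain ⟨u, hu⟩ : ∃ u : ℝ, u = ζ * π.K := ⟨_, rfl⟩
  have hBu : 1 + (B : ℝ) ≤ u := ha.trans (hu ▸ mul_le_mul_of_nonneg_left haKr hζ0.le)
  have hK0 : (0 : ℝ) ≤ π.K := by linarith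
  have huv : 20 * ((m : ℝ) + 2) * u ≤ eb * π.K := by
    have := mul_le_mul_of_nonneg_right hζe hK0
    rw [hu]; linarith
  have huδ : 20 * ((m : ℝ) + 2) * u ≤ δ * π.K := by
    have := mul_le_mul_of_nonneg_right hζδ hK0
    rw [hu]; linarith
  have hvε : 20 * ((m : ℝ) + 2) * (eb * π.K) = ε * π.K := by rw [← hebε]; ring
  have hu0 : 0 ≤ u := by linarith
  have hmu : 2 * u ≤ m * u := mul_le_mul_of_nonneg_right hm0 hu0
  have huε : u ≤ ε * π.K := by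
    have h1 : 0 ≤ eb * π.K := by positivity
    have h2 := mul_le_mul_of_nonneg_right hm0 h1
    linarith
  refine ⟨ζ, hζ0, π, a₀, ⟨ha1.trans haK, ho, ?_⟩, by linarith, hK, fun d h => ?_⟩
  · intro e he
    simp only [hπE, mem_insert, mem_singleton] at he
    rcases he with rfl | rfl | rfl <;> assumption
  have hoζ : π.o ≤ ζ := hπo ▸ min_le_right _ _
  have hoK : π.o * π.K ≤ u := hu ▸ mul_le_mul_of_nonneg_right hoζ hK0
  have hou : π.o ≤ u := le_trans (le_mul_of_one_le_right ho.le hK1) hoK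
  have hGR' := hG False π d h hF (by simp [hπE]) ho.le (hπo ▸ min_le_left _ _)
  rw [← hu] at hGR'
  have hact := act_top d m π
  have hg : Grd d (m + 2) 0 π.K (2 * u) := grd_mono (by simpa using hGR'.1 m 0 π.K hact) (by linarith)
  have hlow := low_A h hg le_rfl (Or.inr (Or.inr rfl))
  have hlow' : (a₀ : ℝ) - u ≤ d.A 0 π.K := by
    refine le_of_mul_le_mul_left ?_ (by linarith : (0 : ℝ) < m + 2)
    rw [mul_sub, ← hKr]
    linarith
  refine ⟨by linarith, fun hA => ?_⟩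
  have hA' : ((m : ℝ) + 2) * d.A 0 π.K ≤ π.K + (m + 2) * u := by
    have := mul_le_mul_of_nonneg_left hA (by linarith : (0 : ℝ) ≤ m + 2)
    rwa [mul_add, ← hKr, ← hu] at this
  have hany : ∀ i j z, j ≤ π.K → Path d.El i j z → ((m : ℝ) + 2) * d.A i j - (m + 7) * u ≤ z := by
    intro i j z hj hp
    have := any_path h (Or.inr (Or.inr rfl)) hg hA' hj hp
    linarith
  obtain ⟨hw1, hw2⟩ := hw (m - 1) (by omega)
  have hw3 : (w (m - 1) : ℝ) ≤ B := by exact_mod_cast hw2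
  have hζδ' : ζ ≤ δ := by
    have := mul_le_mul_of_nonneg_right hm0 hζ0.le
    linarith
  obtain ⟨w', hw', h1, h2⟩ := hB False π d π.K (w (m - 1)) h hF (by simp [hπE]) (by simp [hπE]) ho.le
    (hoζ.trans hζδ') hw1 (by linarith) hact
    (fun i j z hj hp => by have := hany i j z hj hp; linarith)
    (fun i i' hi hi' hn => by
      obtain ⟨z, hp, hz⟩ := hGR'.2 (m - 1) (by omega) i i' hi hi' hn
      have := hany i i' z hi' hp
      rw [Nat.cast_sub (by omega)] at hz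
      push_cast at hz
      linarith)
    (fun ρ hρ => by
      have := low_A h hg (by omega : ρ ≤ π.K) (Or.inr (Or.inl hρ))
      linarith)
  exact n3_core h hm hK ho.le hoK huv hvε hg hlow' hA' hany hw' h1 h2

end Vale.Agent.P076N.NUM
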