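import Vale.Agent.P076N.NUM.Basic

/-!
# P076N, block NUM : the first broad level, and `N1`
-/

set_option linter.all false

open Finset

namespace Vale.Agent.P076N.NUM

theorem nc : NC := by
  intro m O π d w e ε hm h hF hG hw hE hε ho
  classical
  have hex : ∃ l, l = π.K ∨ (l + w (m - 1) < π.K ∧ ¬ d.nar (m - 1) l (w (m - 1))) := ⟨π.K, Or.inl rfl⟩
  set c := Nat.find hex with hc
  have hcK : c ≤ π.K := Nat.find_min' hex (Or.inl rfl)
  have hcs : c = π.K ∨ (c + w (m - 1) < π.K ∧ ¬ d.nar (m - 1) c (w (m - 1))) := Nat.find_spec hex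
  have hm1 : ((m - 1 : ℕ) : ℝ) + 2 = m + 1 := by rw [Nat.cast_sub hm]; push_cast; ring
  have hg : Grd d (m + 1) 0 c e := by
    intro i i' _ h1 h2
    rw [← hm1]
    refine hG.2 (m - 1) (by omega) i i' h1 (by omega) fun l _ hl => ?_
    by_contra hn
    exact Nat.find_min hex (by omega : l < c) (Or.inr ⟨by omega, hn⟩)
  obtain ⟨z, hp, hz⟩ := hg 0 c le_rfl (Nat.zero_le _) le_rfl
  have h1 := h.gp c z (Or.inl ⟨trivial, hcK⟩) hp
  have hK0 : (0 : ℝ) ≤ π.K := Nat.cast_nonneg _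
  have hm0 : (0 : ℝ) ≤ m := Nat.cast_nonneg _
  have hx0 : (0 : ℝ) ≤ ((O.Ml ε : ℝ) + 2) * w (m - 1) := by positivity
  have hεK : 0 ≤ ε * π.K := mul_nonneg hε hK0
  have hmx := mul_nonneg hm0 hx0
  have hA := mul_nonneg (by positivity : (0 : ℝ) ≤ 2 * (m + 1)) (A_nonneg h (i := c) (le_refl π.K))
  rcases hcs with hcs | ⟨hc1, hc2⟩
  · refine ⟨c, hcK, hg, Or.inl hcs, by linarith, ?_⟩
    have : (c : ℝ) = π.K := by exact_mod_cast hcs
    linarith
  · have hJ : d.Jp m π ⟨m, 0, π.K, c, w (m - 1)⟩ :=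
      ⟨act_top d m π, hm, hF _ _ _ (by simp only; omega) hw (by simp only; omega), hc2, Nat.zero_le _,
        by simp only; omega, hw⟩
    refine ⟨c, hcK, hg, Or.inr hJ, by linarith, ?_⟩
    have hxr : ((π.K - c : ℕ) : ℝ) = π.K - c := Nat.cast_sub hcK
    by_cases hx : (O.Ml ε + 2) * w (m - 1) ≤ π.K - c
    · have h2 := cost_le h hE hε hJ (x := π.K - c) hx (by simp only; omega)
      have h3 := h.gb _ (π.K - c) z trivial hJ rfl
        (le_trans (Nat.mul_le_mul_right _ (by omega)) hx) (by simp only; omega) hp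
      simp only [Nat.add_sub_cancel' hcK, hxr] at h2 h3
      have h4 : 0 ≤ ε * c := mul_nonneg hε (Nat.cast_nonneg _)
      nlinarith
    · have h2 : ((π.K - c : ℕ) : ℝ) ≤ ((O.Ml ε + 2) * w (m - 1) : ℕ) := by exact_mod_cast (not_le.1 hx).le
      rw [hxr] at h2
      push_cast at h2
      nlinarith

/-- a large number of levels -/
theorem exists_K (a b : ℝ) (hb : 0 < b) : ∃ K : ℕ, 1 ≤ K ∧ a ≤ b * K := by
  obtain ⟨K, hK⟩ := exists_nat_gt (a / b)
  rw [div_lt_iff₀ hb] at hK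
  exact ⟨K + 1, by omega, by push_cast; nlinarith⟩

theorem n1 : RowN1 := by
  intro hGR hNC m hm O ε hε
  obtain ⟨ε₁, w, B, hε₁, hw, hG⟩ := hGR m O (ε / 8) (by positivity)
  obtain ⟨K, hK1, hK⟩ := exists_K (1 + B + (2 * m + 4) * ((O.Ml (ε / 8) + 2) * B)) (ε / 8) (by positivity)
  have hB0 : (0 : ℝ) ≤ B := Nat.cast_nonneg _
  have hMB : (0 : ℝ) ≤ (2 * m + 4) * ((O.Ml (ε / 8) + 2) * B) := by positivity
  have hK0 : (1 : ℝ) ≤ K := by exact_mod_cast hK1
  have ho : 0 < min ε₁ (ε / 8) := lt_min hε₁ (by positivity)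
  refine ⟨⟨K, trAll m K, min ε₁ (ε / 8), {ε₁, ε / 8}⟩, ⟨hK1, ho, ?_⟩, by simp only; nlinarith, fun d h => ?_⟩
  · intro e he
    simp only [mem_insert, mem_singleton] at he
    rcases he with rfl | rfl
    · exact hε₁
    · positivity
  have hF : Full m ⟨K, trAll m K, min ε₁ (ε / 8), {ε₁, ε / 8}⟩ := full_of rfl
  obtain ⟨hw1, hw2⟩ := hw (m - 1) (by omega)
  obtain ⟨c, hc, -, -, h1, h2⟩ := hNC m O _ d w _ (ε / 8) (by omega) h hF
    (hG True _ d h hF (by simp) ho.le (min_le_left _ _)) hw1 (by simp) (by positivity) ho.le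
  simp only at hc h1 h2 ⊢
  rw [A_add d (Nat.zero_le c) hc]
  have h3 : min ε₁ (ε / 8) ≤ ε / 8 * K := (min_le_right _ _).trans (by nlinarith)
  have h4 : (2 * (m : ℝ) + 4) * ((O.Ml (ε / 8) + 2) * w (m - 1)) ≤ (2 * m + 4) * ((O.Ml (ε / 8) + 2) * B) := by
    have : (w (m - 1) : ℝ) ≤ B := by exact_mod_cast hw2
    gcongr
  have hm0 : (0 : ℝ) ≤ m := Nat.cast_nonneg _
  have h5 : (K : ℝ) - ε * K ≤ (m + 1) * (d.A 0 c + d.A c K) := by nlinarith
  have h6 : 0 ≤ ε * K := by positivity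
  rw [sub_le_iff_le_add, div_le_iff₀ (by positivity)]
  nlinarith

end Vale.Agent.P076N.NUM
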