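import Mathlib

/-!
# P076N, block NUM : the rows of real analysis (notes/P076/alln.md, section 5)
-/

set_option linter.all false

namespace Vale.Agent.P076N.NUM

noncomputable section

/-- **[LIM]** a cluster point of rescaled Lipschitz sequences -/
def LIM : Prop := ∀ (L : ℝ) (W : ℕ → ℕ) (f : ℕ → ℕ → ℝ), (∀ n, n < W n) → (∀ n, f n 0 = 0) →
  (∀ n i, i < W n → |f n (i + 1) - f n i| ≤ L) →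
  ∃ F : ℝ → ℝ, F 0 = 0 ∧ (∀ s t, |F s - F t| ≤ L * |s - t|) ∧
    ∀ ε : ℝ, 0 < ε → ∀ N : ℕ, ∃ n ≥ N, ∀ i ≤ W n, |f n i - W n * F ((i : ℝ) / W n)| ≤ ε * W n

/-- **[RA1]** no Lipschitz function has slopes near `0` or `1`, steep means before steep points,
and lies below `r t` with equality at `1` -/
def RA1 : Prop := ∀ (L r c γ : ℝ) (F : ℝ → ℝ), (∀ s t, |F s - F t| ≤ L * |s - t|) → γ < c → γ < r → r < 1 - γ →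
  F 0 = 0 → (∀ t, 0 ≤ t → t ≤ 1 → F t ≤ r * t) → r ≤ F 1 →
  (∀ t s, 0 < t → t < 1 → HasDerivAt F s t → s ≤ γ ∨ 1 - γ ≤ s) →
  (∀ t s, 0 < t → t < 1 → HasDerivAt F s t → 1 - γ ≤ s → ∀ u, t / 2 < u → u < t → c * (t - u) ≤ F t - F u) →
  False

/-- **[RA2]** slopes near `0` or `1` and the doubling inequality give `min t a` up to `γ` -/
def RA2 : Prop := ∀ (L γ : ℝ) (F : ℝ → ℝ), (∀ s t, |F s - F t| ≤ L * |s - t|) → 0 < γ → F 0 = 0 →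
  (∀ t s, 0 < t → t < 1 → F t < F 1 → HasDerivAt F s t → s ≤ γ ∨ 1 - γ ≤ s) →
  (∀ t x, 0 < t → F t < F 1 → 0 ≤ x → t + 2 * x ≤ 1 → F (t + 2 * x) - F t ≤ 2 * (F (t + x) - F t)) →
  ∃ ρ, 0 ≤ ρ ∧ ρ ≤ 1 ∧ (1 - γ) * ρ ≤ F ρ ∧ F 1 - F ρ ≤ γ

/-- **[RB]** the discrete form of `RA2`; `br` = broad levels -/
def RB : Prop := ∀ (L q γ er : ℝ) (M : ℕ), 0 < q → 0 < γ → 0 < er → ∃ δ : ℝ, 0 < δ ∧
  ∀ (W : ℕ) (f : ℕ → ℝ) (br : ℕ → Prop), 1 ≤ δ * W → f 0 = 0 →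
    (∀ i < W, f i ≤ f (i + 1) ∧ f (i + 1) ≤ f i + L) →
    (∀ ρ : ℕ, 2 * ρ ≤ W → (ρ : ℝ) - δ * W ≤ q * f ρ) →
    (∀ i i' : ℕ, i ≤ i' → i' ≤ W → (∀ l, i ≤ l → l < i' → ¬ br l) → f i' - f i ≤ δ * W) →
    (∀ j x : ℕ, br j → δ * W ≤ x → j + 2 * x ≤ W → f (j + 2 * x) - f j ≤ 2 * (f (j + x) - f j) + δ * W) →
    (∀ (j y : ℕ) (s : ℝ), br j → δ * W ≤ y → j + M * y ≤ W → γ ≤ s → s ≤ 1 - γ →
      (∀ x x' : ℕ, x ≤ x' → x' ≤ M * y → |f (j + x') - f (j + x) - s * ((x' : ℝ) - x)| ≤ er * y) → False) →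
    ∃ w' ≤ W, (w' : ℝ) - 2 * γ * W ≤ f w' ∧ f W - f w' ≤ 2 * γ * W

/-- **[RC]** the discrete form of `RA1` -/
def RC : Prop := ∀ (L r c γ er : ℝ) (M : ℕ), 0 < γ → 3 * γ < c → γ < r → r < 1 - γ → 0 < er → ∃ δ : ℝ, 0 < δ ∧
  ∀ (W : ℕ) (f : ℕ → ℝ), 1 ≤ δ * W → f 0 = 0 → (∀ i < W, |f (i + 1) - f i| ≤ L) →
    (∀ x ≤ W, f x ≤ r * x + δ * W) → r * W - δ * W ≤ f W →
    (∀ (x₀ y : ℕ) (s : ℝ), δ * W ≤ y → M * y ≤ x₀ → x₀ + M * y ≤ W → γ ≤ s → s ≤ 1 - γ →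
      (∀ x x' : ℕ, x₀ ≤ x → x ≤ x' → x' ≤ x₀ + M * y → |f x' - f x - s * ((x' : ℝ) - x)| ≤ er * y) → False) →
    (∀ (x₀ x₁ x₂ : ℕ) (g : ℝ), δ * W ≤ x₀ → x₀ ≤ x₁ → x₁ < x₂ → x₂ ≤ 2 * x₀ → x₂ ≤ W → 0 ≤ g →
      (1 - g) * ((x₂ : ℝ) - x₁) ≤ f x₂ - f x₁ →
      c * ((x₁ : ℝ) - x₀) ≤ f x₂ - f x₀ + g * ((x₁ : ℝ) - x₀) + δ * W) →
    False

def RowRB : Prop := LIM → RA2 → RB

def RowRC : Prop := LIM → RA1 → RC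

end

end Vale.Agent.P076N.NUM
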