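import Vale.Agent.P076N.Num
import Vale.Agent.P076N.NUM.Real

/-!
# P076N, block NUM : rows (notes/P076/alln.md, section 5)

`LIM`, `RA1`, `RA2`, `RB`, `RC` are statements of real analysis; `GR`, `NC`, `BLK`, `CA` are about numeric data.
-/

set_option linter.all false

open Finset

namespace Vale.Agent.P076N.NUM

noncomputable section

/-- all triples are present -/
def Full (m : ℕ) (π : Par) : Prop := ∀ k j w : ℕ, k < m → 1 ≤ w → j + w ≤ π.K → (k, j, w) ∈ π.Tr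

/-- any two levels of `[lo, hi]` are joined by a path of cost `≤ q A + e` -/
def Grd (d : Dat) (q : ℝ) (lo hi : ℕ) (e : ℝ) : Prop :=
  ∀ i i', lo ≤ i → i ≤ i' → i' ≤ hi → ∃ z, Path d.El i i' z ∧ z ≤ q * d.A i i' + e

/-- greedy paths: in active blocks, and along runs of narrow levels of width `w k` -/
def GRd (m : ℕ) (π : Par) (d : Dat) (w : ℕ → ℕ) (e : ℝ) : Prop :=
  (∀ k J W, d.Act m π k J W → Grd d (k + 2) J (J + W) e) ∧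
  ∀ k < m, ∀ i i', i ≤ i' → i' ≤ π.K → (∀ l, i ≤ l → l + w k < i' → d.nar k l (w k)) →
    ∃ z, Path d.El i i' z ∧ z ≤ ((k : ℝ) + 2) * d.A i i' + e

/-- **[GR]** -/
def GR : Prop := ∀ (m : ℕ) (O : Orc) (ε : ℝ), 0 < ε → ∃ (ε₁ : ℝ) (w : ℕ → ℕ) (B : ℕ), 0 < ε₁ ∧
  (∀ k < m, 1 ≤ w k ∧ w k ≤ B) ∧ ∀ (gr : Prop) (π : Par) (d : Dat), Ax m gr O π d → Full m π → ε₁ ∈ π.E →
    0 ≤ π.o → π.o ≤ ε₁ → GRd m π d w (ε * π.K + B)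

/-- **[NC]** the first broad level of rank `m` for graphs -/
def NC : Prop := ∀ (m : ℕ) (O : Orc) (π : Par) (d : Dat) (w : ℕ → ℕ) (e ε : ℝ), 1 ≤ m → Ax m True O π d →
  Full m π → GRd m π d w e → 1 ≤ w (m - 1) → ε ∈ π.E → 0 ≤ ε → 0 ≤ π.o →
  ∃ c ≤ π.K, Grd d (m + 1) 0 c e ∧ (c = π.K ∨ d.Jp m π ⟨m, 0, π.K, c, w (m - 1)⟩) ∧
    (c : ℝ) - e - π.o ≤ (m + 1) * d.A 0 c ∧
    2 * (π.K : ℝ) - c - (e + 2 * π.o + 2 * ε * π.K + (2 * m + 4) * ((O.Ml ε + 2) * w (m - 1))) ≤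
      (m + 1) * d.A 0 c + 2 * (m + 1) * d.A c π.K

/-- **[BLK]** the profile of `A` on an active block that starts at level `0` -/
def BLK : Prop := ∀ (m k : ℕ) (O : Orc) (e : ℝ), 1 ≤ k → k ≤ m → 0 < e → ∃ γ ε δ : ℝ, 0 < γ ∧ 0 < ε ∧ 0 < δ ∧
  ∀ (gr : Prop) (π : Par) (d : Dat) (W w : ℕ), Ax m gr O π d → Full m π → γ ∈ π.E → ε ∈ π.E →
    0 ≤ π.o → π.o ≤ δ → 1 ≤ w → (w : ℝ) ≤ δ * W → d.Act m π k 0 W →
    (∀ i j z, j ≤ W → Path d.El i j z → ((k : ℝ) + 2) * d.A i j - δ * W ≤ z) →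
    (∀ i i', i ≤ i' → i' ≤ W → (∀ l, i ≤ l → l + w < i' → d.nar (k - 1) l w) → d.A i i' ≤ δ * W) →
    (∀ ρ : ℕ, 2 * ρ ≤ W → (ρ : ℝ) - δ * W ≤ ((k : ℝ) + 2) * d.A 0 ρ) →
    ∃ w' ≤ W, (w' : ℝ) - e * W ≤ d.A 0 w' ∧ d.A w' W ≤ e * W

/-- **[CA]** case (a): an early broad level of rank `m` is impossible near equality -/
def CA : Prop := ∀ (m : ℕ) (O : Orc) (η : ℝ), 3 ≤ m → 0 < η → ∃ γ ε δ : ℝ, 0 < γ ∧ 0 < ε ∧ 0 < δ ∧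
  ∀ (π : Par) (d : Dat) (c w : ℕ) (z : ℝ), Ax m True O π d → γ ∈ π.E → ε ∈ π.E → 0 ≤ π.o → π.o ≤ δ →
    d.Jp m π ⟨m, 0, π.K, c, w⟩ → (w : ℝ) ≤ δ * π.K → (c : ℝ) ≤ (1 - η) * π.K → Path d.El 0 c z →
    z ≤ c + δ * π.K → ((m : ℝ) + 1) * d.A c π.K ≤ π.K - c + δ * π.K → False

/-- the rows -/
def RowBLK : Prop := RB → BLK
def RowCA : Prop := RC → CA
def RowN1 : Prop := GR → NC → ∀ m, 2 ≤ m → N1 m
def RowN2 : Prop := GR → NC → BLK → CA → ∀ m, 3 ≤ m → N2 m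
def RowN3 : Prop := GR → BLK → ∀ m, 2 ≤ m → N3 m

theorem num_of (h1 : LIM) (h2 : RA1) (h3 : RA2) (h4 : RowRB) (h5 : RowRC) (h6 : GR) (h7 : NC) (h8 : RowBLK)
    (h9 : RowCA) (h10 : RowN1) (h11 : RowN2) (h12 : RowN3) :
    (∀ m, 2 ≤ m → N1 m) ∧ (∀ m, 3 ≤ m → N2 m) ∧ ∀ m, 2 ≤ m → N3 m :=
  ⟨h10 h6 h7, h11 h6 h7 (h8 (h4 h1 h3)) (h9 (h5 h1 h2)), h12 h6 (h8 (h4 h1 h3))⟩

end

end Vale.Agent.P076N.NUM
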